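import Vale.Agent.P133.Generated

/-!
P133: covering dimension of the ideal lattice, stated with positive elements.
-/

namespace Vale.Agent.P133

open scoped ComplexOrder

variable {C : Type*} [NonUnitalCStarAlgebra C] [PartialOrder C] [StarOrderedRing C]

/-- The closed ideal generated by a set of elements, for elements of the form `p o q`. -/
noncomputable def idealSpan (O : Set C) : Submodule ℂ C :=
  (Submodule.span ℂ {e : C | ∃ o ∈ O, ∃ p q, e = p * o * q}).topologicalClosure

/-- Whenever positive elements generate an ideal containing `b`, there are finitely many positive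
`z l`, each in the ideal of one of them, and a level `δ` such that the `δ`-cuts generate an ideal
containing the given cut of `b`, and any `m + 1` of the ideals of the `z l` meet inside the ideal
of the corresponding cuts. In terms of open subsets of the primitive ideal space: the boundary
layers `{z l ≠ 0} \ {z l > δ}` of a refinement have order at most `m`. -/
def CoverDim (C : Type*) [NonUnitalCStarAlgebra C] [PartialOrder C] (m : ℕ) : Prop :=
  ∀ b : C, 0 ≤ b → ∀ O : Set C, (∀ o ∈ O, 0 ≤ o) → b ∈ idealSpan O → ∀ ε : ℝ, 0 < ε →
    ∃ (n : ℕ) (z : Fin n → C) (δ : ℝ), 0 < δ ∧ (∀ l, 0 ≤ z l) ∧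
      (∀ l, ∃ o ∈ O, z l ∈ idealGen o) ∧ cut ε b ∈ idealSpan (Set.range fun l => cut δ (z l)) ∧
      ∀ S : Finset (Fin n), S.card = m + 1 → ∀ a : C, (∀ l ∈ S, a ∈ idealGen (z l)) →
        a ∈ idealSpan ((fun l => cut δ (z l)) '' (S : Set (Fin n)))

end Vale.Agent.P133
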