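import Vale.Agent.P133.Dim.Multiplicity

/-!
P133: with finite covering dimension the local pieces glue to one element of `y C y` which is
bounded on the copies and generates the ideal of `y`.
-/

namespace Vale.Agent.P133

open scoped ComplexOrder

set_option linter.unusedSectionVars false

variable {C : Type*} [NonUnitalCStarAlgebra C] [PartialOrder C] [StarOrderedRing C]

/-- The bound of the glued element. -/
def gB (m : ℕ) : ℝ := 32 * ((m : ℝ) + 2) + 1

theorem sqrt_cut_le {e : C} (he : 0 ≤ e) :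
    ∃ s : C, star s = s ∧ s * s = cut (1 / 2) e ∧ ‖s‖ ^ 2 ≤ ‖e‖ ∧
      s * s ≤ (2 : ℝ) • (s * e * s) := by
  set f : ℝ → ℝ := fun t => √(max (t - 1 / 2) 0) with hf
  have hfc : Continuous f := by fun_prop
  have hf0 : f 0 = 0 := by simp [hf]
  set s := cfcₙ f e with hs
  have hss : star s = s := (cfcₙ_predicate f e : IsSelfAdjoint s).star_eq
  have hsq : s * s = cfcₙ (fun t => f t * f t) e :=
    (cfcₙ_mul f f e hfc.continuousOn hf0 hfc.continuousOn hf0).symm
  have hcut : s * s = cut (1 / 2) e := by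
    rw [hsq, cut]
    exact cfcₙ_congr fun t _ => Real.mul_self_sqrt (le_max_right _ _)
  refine ⟨s, hss, hcut, ?_, ?_⟩
  · have h := CStarRing.norm_star_mul_self (x := s)
    rw [hss, hcut] at h
    rw [sq, ← h]
    exact norm_cut_le (by norm_num) he
  · rw [hsq, cfcₙ_conj he hfc hf0, ← cfcₙ_smul (2 : ℝ) (fun t => f t * t * f t) e
      ((hfc.mul continuous_id).mul hfc).continuousOn (by simp [hf0])]
    refine cfcₙ_mono (fun t _ => ?_) (hfc.mul hfc).continuousOn
      (((hfc.mul continuous_id).mul hfc).const_smul (2 : ℝ)).continuousOn (by simp [hf0])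
      (by simp [hf0])
    change f t * f t ≤ (2 : ℝ) * (f t * t * f t)
    rcases le_total t (1 / 2) with h | h
    · have h0 : f t = 0 := by
        show √(max (t - 1 / 2) 0) = 0
        rw [max_eq_right (sub_nonpos.2 h), Real.sqrt_zero]
      rw [h0]; simp
    · nlinarith [mul_nonneg (mul_self_nonneg (f t)) (sub_nonneg.2 h)]

theorem sum_le_norm_smul {ι : Type*} [Fintype ι] (g : ι → C) (P : ι → C) {B : ℝ}
    (hP : ∀ l, 0 ≤ P l) (hB : ∀ l, ‖P l‖ ≤ B) (hB0 : 0 ≤ B) {c : ℝ}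
    (hg : ‖∑ l, g l * star (g l)‖ ≤ c) : ‖∑ l, g l * P l * star (g l)‖ ≤ B * c := by
  have h : ∑ l, g l * P l * star (g l) ≤ B • ∑ l, g l * star (g l) := by
    rw [Finset.smul_sum]
    refine Finset.sum_le_sum fun l _ => ?_
    have h1 := CStarAlgebra.star_left_conjugate_le_norm_smul (a := star (g l)) (b := P l)
      (IsSelfAdjoint.of_nonneg (hP l))
    rw [star_star] at h1
    exact h1.trans (smul_le_smul_of_nonneg_right (hB l) (mul_star_self_nonneg _))
  refine (CStarAlgebra.norm_le_norm_of_nonneg_of_le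
    (Finset.sum_nonneg fun l _ => star_right_conjugate_nonneg (hP l) _) h).trans ?_
  rw [norm_smul, Real.norm_of_nonneg hB0]
  exact mul_le_mul_of_nonneg_left hg hB0

theorem norm_sum_error_le {ι : Type*} [Fintype ι] (X X' : ι → C) {r d : ℝ}
    (hX : ∀ l, ‖X l‖ ≤ r) (hX' : ∀ l, ‖X' l‖ ≤ r) (hd : ∀ l, ‖X l - X' l‖ ≤ d) :
    ‖∑ l, X l * star (X l)‖ ≤
      ‖∑ l, X' l * star (X' l)‖ + Fintype.card ι * (2 * r * d) := by
  refine (norm_le_norm_add_norm_sub' _ _).trans (add_le_add le_rfl ?_)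
  rw [← Finset.sum_sub_distrib]
  refine (norm_sum_le _ _).trans ((Finset.sum_le_sum fun l _ => ?_).trans
    (le_of_eq (by simp : ∑ _l : ι, 2 * r * d = Fintype.card ι * (2 * r * d))))
  have hr : 0 ≤ r := (norm_nonneg _).trans (hX l)
  refine (norm_mul_star_sub_le _ _).trans ?_
  exact mul_le_mul (by linarith [hX l, hX' l]) (hd l) (norm_nonneg _) (by linarith)

/-- The glued element and its bounds, given cut units with bounded multiplicity. -/
theorem glue_norms {n N : ℕ} {m : ℕ} {y : C} (hy : star y = y) (g k : Fin n → C) (v : Fin N → C)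
    {R ξ : ℝ} (hR : 1 ≤ R) (hgn : ∀ l, ‖g l‖ ≤ 1) (hyR : ‖y‖ ≤ R) (hkR : ∀ l, ‖k l‖ ≤ R)
    (hvR : ∀ i, ‖v i‖ ≤ R) (hyk : ∀ l, ‖y * k l‖ ≤ 4)
    (hΦ : ∀ l, ‖∑ i, star (v i) * ((y * k l) * star (y * k l)) * v i‖ ≤ 16)
    (hyg : ∀ l, ‖y * g l - g l * y‖ ≤ ξ) (hvg : ∀ i l, ‖star (v i) * g l - g l * star (v i)‖ ≤ ξ)
    (hξ : 4 * R ^ 5 * ((n : ℝ) + 1) * ((N : ℝ) + 1) * ξ ≤ 1)
    (hmult : ‖∑ l, g l * star (g l)‖ ≤ 2 * ((m : ℝ) + 2)) :
    ∀ d, d = ∑ l, g l * k l * star (g l * k l) →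
      ‖y * d * y‖ ≤ gB m ∧ ‖∑ i, star (v i) * (y * d * y) * v i‖ ≤ gB m := by
  rintro d rfl
  have hR0 : 0 ≤ R := by linarith
  have hm0 : (0 : ℝ) ≤ (m : ℝ) + 2 := by positivity
  have hξ2 : ∀ l : Fin n, 0 ≤ ξ := fun l => (norm_nonneg _).trans (hyg l)
  have hc : y * (∑ l, g l * k l * star (g l * k l)) * y =
      ∑ l, y * g l * k l * star (y * g l * k l) := by
    rw [Finset.mul_sum, Finset.sum_mul]
    exact Finset.sum_congr rfl fun l _ => by simp only [star_mul, hy, mul_assoc]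
  have hgk : ∀ l, ‖g l * (y * k l)‖ ≤ R ^ 2 := fun l => by
    refine (norm_mul_le _ _).trans ((mul_le_of_le_one_left (norm_nonneg _) (hgn l)).trans ?_)
    exact (norm_mul_le _ _).trans ((mul_le_mul hyR (hkR l) (norm_nonneg _) hR0).trans
      (le_of_eq (by ring)))
  have hygk : ∀ l, ‖y * g l * k l‖ ≤ R ^ 2 := fun l => by
    refine norm_mul₃_le.trans ((mul_le_mul ((mul_le_mul hyR (hgn l) (norm_nonneg _) hR0).trans
      (le_of_eq (mul_one R))) (hkR l) (norm_nonneg _) hR0).trans (le_of_eq (by ring)))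
  have hRp : ∀ a b : ℕ, a ≤ b → R ^ a ≤ R ^ b := fun a b h => pow_le_pow_right₀ hR h
  constructor
  · rw [hc]
    refine (norm_sum_error_le (fun l => y * g l * k l) (fun l => g l * (y * k l)) hygk hgk
      (d := R * ξ) fun l => ?_).trans ?_
    · have e : y * g l * k l - g l * (y * k l) = (y * g l - g l * y) * k l := by
        simp only [sub_mul, mul_assoc]
      rw [e, mul_comm R ξ]
      exact (norm_mul_le _ _).trans (mul_le_mul (hyg l) (hkR l) (norm_nonneg _) (hξ2 l))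
    have e : ∑ l, g l * (y * k l) * star (g l * (y * k l)) =
        ∑ l, g l * ((y * k l) * star (y * k l)) * star (g l) :=
      Finset.sum_congr rfl fun l _ => by simp only [star_mul, mul_assoc]
    rw [e]
    have h1 := sum_le_norm_smul g (fun l => (y * k l) * star (y * k l))
      (fun l => mul_star_self_nonneg _) (B := 16) (fun l => by
        refine (norm_mul_le _ _).trans ?_
        rw [norm_star]; nlinarith [hyk l, norm_nonneg (y * k l)]) (by norm_num) hmult
    simp only [Fintype.card_fin]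
    rcases Nat.eq_zero_or_pos n with hn | hn
    · subst hn
      simp only [Nat.cast_zero, zero_mul, add_zero, gB]
      linarith
    have hξ0 := hξ2 ⟨0, hn⟩
    have h2 : (n : ℝ) * (2 * R ^ 2 * (R * ξ)) ≤ 1 := by
      refine le_trans ?_ hξ
      have h3 : R ^ 3 ≤ R ^ 5 := hRp 3 5 (by norm_num)
      have h4 : (n : ℝ) ≤ ((n : ℝ) + 1) * ((N : ℝ) + 1) := by
        nlinarith [Nat.cast_nonneg (α := ℝ) n, Nat.cast_nonneg (α := ℝ) N]
      calc (n : ℝ) * (2 * R ^ 2 * (R * ξ)) = 2 * R ^ 3 * n * ξ := by ring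
        _ ≤ 4 * R ^ 5 * (((n : ℝ) + 1) * ((N : ℝ) + 1)) * ξ := by
            refine mul_le_mul_of_nonneg_right ?_ hξ0
            exact mul_le_mul (by linarith [pow_nonneg hR0 3]) h4 (Nat.cast_nonneg _) (by positivity)
        _ = 4 * R ^ 5 * ((n : ℝ) + 1) * ((N : ℝ) + 1) * ξ := by ring
    rw [gB]
    linarith
  · rw [hc]
    have e0 : ∑ i, star (v i) * (∑ l, y * g l * k l * star (y * g l * k l)) * v i =
        ∑ p : Fin N × Fin n, star (v p.1) * (y * g p.2 * k p.2) *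
          star (star (v p.1) * (y * g p.2 * k p.2)) := by
      rw [Fintype.sum_prod_type]
      refine Finset.sum_congr rfl fun i _ => ?_
      rw [Finset.mul_sum, Finset.sum_mul]
      exact Finset.sum_congr rfl fun l _ => by simp only [star_mul, star_star, hy, mul_assoc]
    have e1 : ∑ p : Fin N × Fin n, g p.2 * (star (v p.1) * (y * k p.2)) *
        star (g p.2 * (star (v p.1) * (y * k p.2))) =
        ∑ l, g l * (∑ i, star (v i) * ((y * k l) * star (y * k l)) * v i) * star (g l) := by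
      rw [Fintype.sum_prod_type, Finset.sum_comm]
      refine Finset.sum_congr rfl fun l _ => ?_
      rw [Finset.mul_sum, Finset.sum_mul]
      exact Finset.sum_congr rfl fun i _ => by simp only [star_mul, star_star, hy, mul_assoc]
    rw [e0]
    refine (norm_sum_error_le _ (fun p : Fin N × Fin n => g p.2 * (star (v p.1) * (y * k p.2)))
      (r := R ^ 3) (d := 2 * R ^ 2 * ξ) (fun p => ?_) (fun p => ?_) fun p => ?_).trans ?_
    · refine (norm_mul_le _ _).trans ?_
      rw [norm_star]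
      exact (mul_le_mul (hvR p.1) (hygk p.2) (norm_nonneg _) hR0).trans (le_of_eq (by ring))
    · refine (norm_mul_le _ _).trans ((mul_le_of_le_one_left (norm_nonneg _) (hgn p.2)).trans ?_)
      refine (norm_mul_le _ _).trans ?_
      rw [norm_star]
      refine (mul_le_mul (hvR p.1) ((norm_mul_le _ _).trans
        (mul_le_mul hyR (hkR p.2) (norm_nonneg _) hR0)) (norm_nonneg _) hR0).trans
        (le_of_eq (by ring))
    · have e : star (v p.1) * (y * g p.2 * k p.2) - g p.2 * (star (v p.1) * (y * k p.2)) =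
          star (v p.1) * (y * g p.2 - g p.2 * y) * k p.2 +
            (star (v p.1) * g p.2 - g p.2 * star (v p.1)) * (y * k p.2) := by
        simp only [sub_mul, mul_sub, mul_assoc]; abel
      rw [e]
      refine (norm_add_le _ _).trans ?_
      have h1 : ‖star (v p.1) * (y * g p.2 - g p.2 * y) * k p.2‖ ≤ R ^ 2 * ξ := by
        refine norm_mul₃_le.trans ((mul_le_mul (mul_le_mul ((norm_star _).le.trans (hvR p.1))
          (hyg p.2) (norm_nonneg _) hR0) (hkR p.2) (norm_nonneg _)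
          (mul_nonneg hR0 (hξ2 p.2))).trans (le_of_eq (by ring)))
      have h2 : ‖(star (v p.1) * g p.2 - g p.2 * star (v p.1)) * (y * k p.2)‖ ≤ R ^ 2 * ξ := by
        refine (norm_mul_le _ _).trans ((mul_le_mul (hvg p.1 p.2) ((norm_mul_le _ _).trans
          (mul_le_mul hyR (hkR p.2) (norm_nonneg _) hR0)) (norm_nonneg _)
          (hξ2 p.2)).trans (le_of_eq (by ring)))
      linarith
    rw [e1]
    have h1 := sum_le_norm_smul g (fun l => ∑ i, star (v i) * ((y * k l) * star (y * k l)) * v i)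
      (fun l => Finset.sum_nonneg fun i _ =>
        star_left_conjugate_nonneg (mul_star_self_nonneg _) _) (B := 16) hΦ (by norm_num) hmult
    simp only [Fintype.card_prod, Fintype.card_fin, Nat.cast_mul]
    rcases Nat.eq_zero_or_pos n with hn | hn
    · subst hn
      simp only [Nat.cast_zero, mul_zero, zero_mul, add_zero, gB]
      linarith
    have hξ0 := hξ2 ⟨0, hn⟩
    have h2 : (N : ℝ) * n * (2 * R ^ 3 * (2 * R ^ 2 * ξ)) ≤ 1 := by
      refine le_trans ?_ hξ
      have h4 : (N : ℝ) * n ≤ ((n : ℝ) + 1) * ((N : ℝ) + 1) := by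
        nlinarith [Nat.cast_nonneg (α := ℝ) n, Nat.cast_nonneg (α := ℝ) N]
      calc (N : ℝ) * n * (2 * R ^ 3 * (2 * R ^ 2 * ξ))
          = 4 * R ^ 5 * ((N : ℝ) * n) * ξ := by ring
        _ ≤ 4 * R ^ 5 * (((n : ℝ) + 1) * ((N : ℝ) + 1)) * ξ :=
            mul_le_mul_of_nonneg_right (mul_le_mul_of_nonneg_left h4 (by positivity)) hξ0
        _ = 4 * R ^ 5 * ((n : ℝ) + 1) * ((N : ℝ) + 1) * ξ := by ring
    rw [gB]
    linarith

theorem xl_mul_gw_le {n : ℕ} {U : ℕ → C} {w : Fin n → C} (hU01 : ∀ i, 0 ≤ U i ∧ ‖U i‖ ≤ 1)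
    (hws : ∀ l, star (w l) = w l ∧ ‖w l‖ ≤ 1) (p : Fin n → C) (T : Finset (Fin n)) (M : Fin n)
    {Y ξ₂ ξA : ℝ} (hY : ∀ i, ‖p i‖ ≤ Y) (hY0 : 0 ≤ Y) (hξ₂ : 0 ≤ ξ₂)
    (hUU : ∀ i < n, ∀ j < n, ‖U i * U j - U j * U i‖ ≤ ξ₂)
    (hyu : ∀ i : Fin n, ‖p i * U i - p i‖ ≤ ξ₂) (hlt : ∀ i ∈ T, i < M)
    (hp : ‖xl w T.toList - ∑ i ∈ T, p i‖ < ξA / 2)
    (hξ : ((n : ℝ) + 1) * (Y * n + 1) * ξ₂ ≤ ξA / 2) :
    ‖xl w T.toList * gw U (w M) M‖ ≤ ξA := by
  have h1 : ∀ i ∈ T, ‖p i * gw U (w M) M‖ ≤ (Y * n + 1) * ξ₂ := fun i hi => by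
    obtain ⟨_, _, _, h⟩ := norm_mul_gw_le hU01 (hws M).2 (hyu i) M (hlt i hi)
      fun j hj => hUU i i.isLt j (by omega)
    refine h.trans (mul_le_mul_of_nonneg_right ?_ hξ₂)
    have : ((M : ℕ) : ℝ) ≤ (n : ℝ) := by exact_mod_cast M.isLt.le
    linarith [mul_le_mul (hY i) this (Nat.cast_nonneg _) hY0]
  have e : xl w T.toList * gw U (w M) M =
      (xl w T.toList - ∑ i ∈ T, p i) * gw U (w M) M + ∑ i ∈ T, p i * gw U (w M) M := by
    rw [sub_mul, Finset.sum_mul]; abel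
  have h2 := (norm_mul_le (xl w T.toList - ∑ i ∈ T, p i) (gw U (w M) M)).trans
    (mul_le_of_le_one_right (norm_nonneg _) ((norm_gw_le hU01 _ _).trans (hws M).2))
  have h3 : ‖∑ i ∈ T, p i * gw U (w M) M‖ ≤ ξA / 2 := by
    refine (norm_sum_le _ _).trans ((Finset.sum_le_sum h1).trans ?_)
    rw [Finset.sum_const, nsmul_eq_mul]
    have h4 : (T.card : ℝ) ≤ (n : ℝ) + 1 := by
      have := Finset.card_le_univ T
      rw [Fintype.card_fin] at this
      have : (T.card : ℝ) ≤ n := by exact_mod_cast this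
      linarith
    have h6 : 0 ≤ (Y * n + 1) * ξ₂ := by positivity
    linarith [mul_le_mul_of_nonneg_right h4 h6]
  rw [e]
  linarith [norm_add_le ((xl w T.toList - ∑ i ∈ T, p i) * gw U (w M) M)
    (∑ i ∈ T, p i * gw U (w M) M)]

set_option maxHeartbeats 1000000 in
/-- The glued element. -/
theorem exists_glue (hC : PurelyInfinite C) {m : ℕ} (hD : CoverDim C m) {y : C} (hy : 0 ≤ y)
    {ε : ℝ} (hε : 0 < ε) {N : ℕ} (v : Fin N → C) (hv : ‖∑ i, v i * star (v i)‖ ≤ 2) :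
    ∃ d : C, 0 ≤ y * d * y ∧ ‖y * d * y‖ ≤ gB m ∧
      ‖∑ i, star (v i) * (y * d * y) * v i‖ ≤ gB m ∧
      cut ε (y * y) ∈ idealGen (cut (1 / 16) (y * d * y)) := by
  classical
  have hys : star y = y := (IsSelfAdjoint.of_nonneg hy).star_eq
  set O : Set C := {o | ∃ k, o = cut (1 / 2) ((y * k) * star (y * k)) ∧ ‖y * k‖ ≤ 4 ∧
    ‖∑ i, star (v i) * ((y * k) * star (y * k)) * v i‖ ≤ 16} with hO
  have hO0 : ∀ o ∈ O, 0 ≤ o := by rintro o ⟨k, rfl, -⟩; exact cut_nonneg _ _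
  have hJ0 : IsStarIdeal (idealSpan O) :=
    isStarIdeal_idealSpan fun o ho => (IsSelfAdjoint.of_nonneg (hO0 o ho)).star_eq
  have hyJ : y ∈ idealSpan O := by
    by_contra h
    obtain ⟨k, hk1, hk2, hk3⟩ := exists_local hJ0 h v hv
    exact hk3 (idealGen_le_idealSpan (O := O) ⟨k, rfl, hk1, hk2⟩
      (mem_idealGen_self (cut_nonneg _ _)))
  have hyy : 0 ≤ y * y := (IsSelfAdjoint.of_nonneg hy).mul_self_nonneg
  set b := cut (ε / 4) (y * y) with hb
  have hbJ : b ∈ idealSpan O := cut_mem_of_qn_lt hJ0 hyy (by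
    rw [(qn_eq_zero hJ0).2 (hJ0.mul_left y y hyJ)]; linarith)
  obtain ⟨n, z, δ, hδ, hz0, hzO, hcov, hmult⟩ :=
    hD b (cut_nonneg _ _) O hO0 hbJ (ε / 4) (by linarith)
  choose o ho hzo using hzO
  choose k hok hk4 hk16 using ho
  choose s hss hso hsn hsle using fun l => sqrt_cut_le (mul_star_self_nonneg (y * k l))
  have hr' : ∀ l, ∃ r, ‖star r * (s l * s l) * r - z l‖ < δ / 4 := fun l => by
    rw [hso l, ← hok l]
    exact hC.exists_conj_of_mem (hO0 _ ⟨k l, hok l, hk4 l, hk16 l⟩) (hz0 l) (hzo l) (by linarith)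
  choose r hr using hr'
  -- parameters
  set R := 1 + ‖y‖ + ∑ l, ‖k l‖ + ∑ i, ‖v i‖ + ∑ l, ‖r l‖ with hR
  have hs1 := Finset.sum_nonneg (s := Finset.univ) fun l _ => norm_nonneg (k l)
  have hs2 := Finset.sum_nonneg (s := Finset.univ) fun i _ => norm_nonneg (v i)
  have hs3 := Finset.sum_nonneg (s := Finset.univ) fun l _ => norm_nonneg (r l)
  have hR1 : 1 ≤ R := by rw [hR]; linarith [norm_nonneg y]
  have hyR : ‖y‖ ≤ R := by rw [hR]; linarith
  have hkR : ∀ l, ‖k l‖ ≤ R := fun l => by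
    rw [hR]; linarith [norm_nonneg y, Finset.single_le_sum (f := fun l => ‖k l‖)
      (fun j _ => norm_nonneg _) (Finset.mem_univ l)]
  have hvR : ∀ i, ‖v i‖ ≤ R := fun i => by
    rw [hR]; linarith [norm_nonneg y, Finset.single_le_sum (f := fun i => ‖v i‖)
      (fun j _ => norm_nonneg _) (Finset.mem_univ i)]
  have hrR : ∀ l, ‖r l‖ ≤ R := fun l => by
    rw [hR]; linarith [norm_nonneg y, Finset.single_le_sum (f := fun l => ‖r l‖)
      (fun j _ => norm_nonneg _) (Finset.mem_univ l)]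
  obtain ⟨K, hK⟩ := exists_pow_lt_of_lt_one (show 0 < δ / 4 / (16 * R ^ 2) by positivity)
    (show (1 / 2 : ℝ) < 1 by norm_num)
  rw [lt_div_iff₀ (by positivity)] at hK
  obtain ⟨ξA, hξA, hbound⟩ := exists_glue_bound (C := C) n m
  set ξ := min ξA (min (1 / (1000 * ((n : ℝ) + 1) ^ 2 * ((N : ℝ) + 1) * R ^ 6))
    (δ / 8 / (17 * R * K + 48 * R ^ 2))) with hξdef
  have hξ : 0 < ξ := lt_min hξA (lt_min (by positivity) (by positivity))
  have hξR : 1000 * ((n : ℝ) + 1) ^ 2 * ((N : ℝ) + 1) * R ^ 6 * ξ ≤ 1 := by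
    have := (min_le_right ξA _).trans (min_le_left
      (1 / (1000 * ((n : ℝ) + 1) ^ 2 * ((N : ℝ) + 1) * R ^ 6))
      (δ / 8 / (17 * R * K + 48 * R ^ 2)))
    rw [← hξdef, le_div_iff₀ (by positivity)] at this
    linarith
  have hξA' : ξ ≤ ξA := min_le_left _ _
  have hξδ : (17 * R * K + 48 * R ^ 2) * ξ ≤ δ / 8 := by
    have := (min_le_right ξA _).trans
      (min_le_right (1 / (1000 * ((n : ℝ) + 1) ^ 2 * ((N : ℝ) + 1) * R ^ 6))
        (δ / 8 / (17 * R * K + 48 * R ^ 2)))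
    rw [← hξdef, le_div_iff₀ (by positivity)] at this
    linarith
  clear_value R ξ
  -- first family
  set S₁ : Finset C := insert y (Finset.univ.image (fun i => star (v i)) ∪
    Finset.univ.image s ∪ Finset.univ.image fun l => star (r l)) with hS₁
  have hzs : ∀ l, star (z l) = z l := fun l => (IsSelfAdjoint.of_nonneg (hz0 l)).star_eq
  obtain ⟨w, hw⟩ := exists_family n (fun l => idealGen (z l))
    (fun l => isStarIdeal_idealGen (hzs l)) (fun l => {z l})
    (fun l a ha => by rw [Finset.mem_singleton] at ha; subst ha; exact mem_idealGen_self (hz0 l))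
    S₁ ξ hξ
  -- decompositions of the products
  set cz : Fin n → C := fun l => cut δ (z l) with hcz
  have hsplit : ∀ T : Finset (Fin n), ∃ p : Fin n → C, (∀ i, p i ∈ idealGen (cz i)) ∧
      (T.card = m + 1 → ‖xl w T.toList - ∑ i ∈ T, p i‖ < ξA / 2) := fun T => by
    by_cases hT : T.card = m + 1
    · have hx : xl w T.toList ∈ idealSpan (cz '' (T : Set (Fin n))) :=
        hmult T hT _ fun l hl => xl_mem (isStarIdeal_idealGen (hzs l))
          (Finset.mem_toList.2 hl) (hw l).1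
      obtain ⟨p, hp1, hp2⟩ := exists_split hx (half_pos hξA)
      exact ⟨p, hp1, fun _ => hp2⟩
    · exact ⟨0, fun i => zero_mem _, fun h => absurd h hT⟩
  choose p hpJ hp using hsplit
  set Y := ∑ T, ∑ i, ‖p T i‖ with hY
  have hY0 : 0 ≤ Y := Finset.sum_nonneg fun T _ => Finset.sum_nonneg fun i _ => norm_nonneg _
  have hpY : ∀ T i, ‖p T i‖ ≤ Y := fun T i =>
    (Finset.single_le_sum (f := fun i => ‖p T i‖) (fun j _ => norm_nonneg _)
      (Finset.mem_univ i)).trans (Finset.single_le_sum (f := fun T => ∑ i, ‖p T i‖)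
        (fun T _ => Finset.sum_nonneg fun i _ => norm_nonneg _) (Finset.mem_univ T))
  -- second family
  set ξ₂ := min ξ (ξA / 2 / (((n : ℝ) + 1) * (Y * n + 1))) with hξ₂def
  have hξ₂ : 0 < ξ₂ := lt_min hξ (by positivity)
  have hξY : ((n : ℝ) + 1) * (Y * n + 1) * ξ₂ ≤ ξA / 2 := by
    have h5 : ξ₂ ≤ ξA / 2 / (((n : ℝ) + 1) * (Y * n + 1)) := min_le_right _ _
    rw [le_div_iff₀ (by positivity)] at h5
    rw [mul_comm]; exact h5
  have hξ₂ξ : ξ₂ ≤ ξ := min_le_left _ _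
  clear_value Y ξ₂
  obtain ⟨u, hu⟩ := exists_family n (fun l => idealGen (cz l))
    (fun l => isStarIdeal_idealGen (IsSelfAdjoint.of_nonneg (cut_nonneg _ _)).star_eq)
    (fun l => Finset.univ.image fun T => p T l)
    (fun l a ha => by
      obtain ⟨T, -, rfl⟩ := Finset.mem_image.1 ha
      exact hpJ T l)
    (S₁ ∪ Finset.univ.image w) ξ₂ hξ₂
  set U : ℕ → C := fun i => if h : i < n then u ⟨i, h⟩ else 0 with hU
  have hU01 : ∀ i, 0 ≤ U i ∧ ‖U i‖ ≤ 1 := fun i => by
    simp only [hU]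
    split_ifs with h
    · exact ⟨(hu _).2.1, (hu _).2.2.1⟩
    · simp
  have hUi : ∀ i (h : i < n), U i = u ⟨i, h⟩ := fun i h => by simp only [hU, dif_pos h]
  have hUU : ∀ i < n, ∀ j < n, ‖U i * U j - U j * U i‖ ≤ ξ₂ := fun i hi j hj => by
    rw [hUi i hi, hUi j hj]; exact (hu _).2.2.2.2.2 _
  have hxU : ∀ x ∈ S₁, ∀ i < n, ‖x * U i - U i * x‖ ≤ ξ := fun x hx i hi => by
    rw [hUi i hi, norm_sub_rev]
    exact ((hu _).2.2.2.2.1 x (Finset.mem_union_left _ hx)).trans hξ₂ξ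
  have hwU : ∀ i < n, ∀ l, ‖w l * U i - U i * w l‖ ≤ ξ := fun i hi l => by
    rw [hUi i hi, norm_sub_rev]
    exact ((hu _).2.2.2.2.1 _ (Finset.mem_union_right _ (by simp))).trans hξ₂ξ
  have hws : ∀ l, star (w l) = w l ∧ ‖w l‖ ≤ 1 := fun l =>
    ⟨(IsSelfAdjoint.of_nonneg (hw l).2.1).star_eq, (hw l).2.2.1⟩
  set g : Fin n → C := fun l => gw U (w l) l with hg
  have hgn : ∀ l, ‖g l‖ ≤ 1 := fun l => (norm_gw_le hU01 _ _).trans (hws l).2
  have hgm : ‖∑ l, g l * star (g l)‖ ≤ 2 * ((m : ℝ) + 2) := by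
    refine hbound U w hU01 hws (fun i hi j hj => (hUU i hi j hj).trans
      (hξ₂ξ.trans hξA')) (fun i hi l => (hwU i hi l).trans hξA')
      (fun i j => ((hw i).2.2.2.2.2 j).trans hξA') fun T M hT hlt => ?_
    refine xl_mul_gw_le hU01 hws (p T) T M (hpY T) hY0 hξ₂.le hUU (fun i => ?_) hlt (hp T hT) hξY
    rw [hUi i i.isLt, Fin.eta]
    exact ((hu i).2.2.2.1 _ (Finset.mem_image.2 ⟨T, Finset.mem_univ _, rfl⟩)).2.le
  -- commutators with the data
  set ξ' := ((n : ℝ) + 1) * ξ with hξ'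
  have hxg : ∀ x ∈ S₁, ∀ l, ‖x * g l - g l * x‖ ≤ ξ' := fun x hx l => by
    refine (norm_comm_gw_le hU01 (hws l).2 ((norm_sub_rev _ _).le.trans ((hw l).2.2.2.2.1 x hx)) l
      fun i hi => hxU x hx i (by omega)).trans (mul_le_mul_of_nonneg_right ?_ hξ.le)
    have : ((l : ℕ) : ℝ) ≤ (n : ℝ) := by exact_mod_cast l.isLt.le
    linarith
  set d := ∑ l, g l * k l * star (g l * k l) with hd
  have hξ5 : 4 * R ^ 5 * ((n : ℝ) + 1) * ((N : ℝ) + 1) * ξ' ≤ 1 := by
    refine le_trans ?_ hξR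
    rw [hξ']
    have h1 : R ^ 5 ≤ R ^ 6 := pow_le_pow_right₀ hR1 (by norm_num)
    calc 4 * R ^ 5 * ((n : ℝ) + 1) * ((N : ℝ) + 1) * (((n : ℝ) + 1) * ξ)
        = 4 * R ^ 5 * (((n : ℝ) + 1) ^ 2 * ((N : ℝ) + 1) * ξ) := by ring
      _ ≤ 1000 * R ^ 6 * (((n : ℝ) + 1) ^ 2 * ((N : ℝ) + 1) * ξ) :=
          mul_le_mul_of_nonneg_right (by linarith [pow_nonneg (zero_le_one.trans hR1) 6])
            (by positivity)
      _ = 1000 * ((n : ℝ) + 1) ^ 2 * ((N : ℝ) + 1) * R ^ 6 * ξ := by ring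
  obtain ⟨hn1, hn2⟩ := glue_norms hys g k v hR1 hgn hyR hkR hvR hk4 hk16
    (fun l => hxg y (by simp [hS₁]) l) (fun i l => hxg _ (by simp [hS₁]) l) hξ5 hgm d hd
  have hc0 : 0 ≤ y * d * y := by
    have := star_left_conjugate_nonneg
      (Finset.sum_nonneg fun l _ => mul_star_self_nonneg (g l * k l) : 0 ≤ d) y
    rwa [hys] at this
  refine ⟨d, hc0, hn1, hn2, ?_⟩
  -- strength
  set c := y * d * y with hc
  set J := idealGen (cut (1 / 16) c) with hJdef
  have hJ : IsStarIdeal J :=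
    isStarIdeal_idealGen (IsSelfAdjoint.of_nonneg (cut_nonneg _ _)).star_eq
  have hqc : qn J c ≤ 1 / 16 := qn_cut_self hc0 (by norm_num)
  have hterm : ∀ l, qn J (y * g l * k l) ≤ 1 / 4 := fun l => by
    have h1 : y * g l * k l * star (y * g l * k l) ≤ c := by
      have e : c = ∑ j, y * g j * k j * star (y * g j * k j) := by
        rw [hc, hd, Finset.mul_sum, Finset.sum_mul]
        exact Finset.sum_congr rfl fun j _ => by simp only [star_mul, hys, mul_assoc]
      rw [e]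
      exact Finset.single_le_sum (f := fun j => y * g j * k j * star (y * g j * k j))
        (fun j _ => mul_star_self_nonneg _) (Finset.mem_univ l)
    have h2 := (qn_le_of_le hJ (mul_star_self_nonneg _) h1).trans hqc
    rw [qn_mul_star_self hJ] at h2
    nlinarith [qn_nonneg (J := J) (y * g l * k l)]
  have hall : ∀ j, ∀ h : j < n, cz ⟨j, h⟩ ∈ J := by
    intro j
    induction j using Nat.strong_induction_on with
    | _ j ih =>
      intro hj
      set l : Fin n := ⟨j, hj⟩ with hl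
      have hgJ : g l - w l ∈ J := gw_sub_mem hJ _ _ fun i hi => by
        rw [hUi i (by omega)]
        exact idealGen_le hJ (ih i hi (by omega)) (hu _).1
      have hut : qn J (w l * (y * k l)) ≤ 1 / 3 := by
        have e : qn J (w l * (y * k l)) = qn J (g l * (y * k l)) := by
          refine qn_eq_of_sub_mem hJ ?_
          rw [← sub_mul, ← neg_sub, neg_mul]
          exact neg_mem (hJ.mul_right _ _ hgJ)
        rw [e]
        refine (qn_le_add_norm _ (y * g l * k l)).trans ?_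
        have h1 : ‖g l * (y * k l) - y * g l * k l‖ ≤ ξ' * R := by
          rw [← mul_assoc, ← sub_mul]
          exact (norm_mul_le _ _).trans (mul_le_mul ((norm_sub_rev _ _).le.trans
            (hxg y (by simp [hS₁]) l)) (hkR l) (norm_nonneg _) (by positivity))
        have h2 : ξ' * R ≤ 1 / 12 := by
          rw [hξ']
          have h3 : R ≤ R ^ 6 := le_self_pow₀ hR1 (by norm_num)
          have h4 : (n : ℝ) + 1 ≤ ((n : ℝ) + 1) ^ 2 * ((N : ℝ) + 1) := by
            nlinarith [Nat.cast_nonneg (α := ℝ) n, Nat.cast_nonneg (α := ℝ) N]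
          calc ((n : ℝ) + 1) * ξ * R ≤ ((n : ℝ) + 1) ^ 2 * ((N : ℝ) + 1) * ξ * R ^ 6 :=
                mul_le_mul (mul_le_mul_of_nonneg_right h4 hξ.le) h3 (by linarith) (by positivity)
            _ ≤ 1 / 12 := by
                have h0 : 0 ≤ ((n : ℝ) + 1) ^ 2 * ((N : ℝ) + 1) * ξ * R ^ 6 := by positivity
                linarith
        linarith [hterm l]
      have hSr : star (r l) ∈ S₁ := by simp [hS₁]
      have hSs : s l ∈ S₁ := by simp [hS₁]
      have hsn4 : ‖s l‖ ≤ 4 := by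
        have h1 := hsn l
        rw [CStarRing.norm_self_mul_star] at h1
        nlinarith [norm_nonneg (s l), hk4 l, norm_nonneg (y * k l)]
      have hq : qn J (z l) < δ := qn_lt_of_decay hJ K (hws l).2 (hss l) (hsle l)
        hsn4
        (hk4 l) (hws l).1 hut ((hw l).2.2.2.2.1 _ hSs)
        (((hw l).2.2.2.1 (z l) (Finset.mem_singleton_self _)).1.le)
        ((hw l).2.2.2.2.1 _ hSr) (hr l).le hR1 (hrR l) hδ hK.le hξδ
      exact cut_mem_of_qn_lt hJ (hz0 l) hq
  have hbJ' : cut (ε / 4) b ∈ J := by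
    refine idealSpan_le hJ ?_ hcov
    rintro o ⟨l, rfl⟩
    exact hall l l.isLt
  refine cut_mem_of_qn_lt hJ hyy ?_
  have h1 := (qn_le_norm_sub hbJ').trans
    (norm_sub_cut_le (show 0 ≤ ε / 4 by linarith) (cut_nonneg _ _))
  have h2 := (qn_le_add_norm (J := J) (y * y) b).trans
    (add_le_add h1 (norm_sub_cut_le (show 0 ≤ ε / 4 by linarith) hyy))
  linarith

end Vale.Agent.P133
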