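import Mathlib

/-!
P133: a sum of almost commuting contractions in which every `k + 1` have small product has norm
at most about `k`.
-/

namespace Vale.Agent.P133

section words

variable {A : Type*} [CStarAlgebra A] [Nontrivial A] {n : ℕ} {a : Fin n → A}

theorem norm_word_le_one (ha : ∀ i, ‖a i‖ ≤ 1) (l : List (Fin n)) : ‖(l.map a).prod‖ ≤ 1 := by
  induction l with
  | nil => simp
  | cons i l ih =>
    rw [List.map_cons, List.prod_cons]
    exact (norm_mul_le _ _).trans (mul_le_one₀ (ha i) (norm_nonneg _) ih)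

theorem norm_commutator_word_le (ha : ∀ i, ‖a i‖ ≤ 1) {ξ : ℝ} (_hξ : 0 ≤ ξ)
    (hc : ∀ i j, ‖a i * a j - a j * a i‖ ≤ ξ) (i : Fin n) (l : List (Fin n)) :
    ‖(l.map a).prod * a i - a i * (l.map a).prod‖ ≤ l.length * ξ := by
  induction l with
  | nil => simp
  | cons j l ih =>
    rw [List.map_cons, List.prod_cons]
    set P := (l.map a).prod with hP
    have e : a j * P * a i - a i * (a j * P) =
        a j * (P * a i - a i * P) + (a j * a i - a i * a j) * P := by noncomm_ring
    rw [e, List.length_cons]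
    push_cast
    refine (norm_add_le _ _).trans ((add_le_add ((norm_mul_le _ _).trans ?_)
      ((norm_mul_le _ _).trans ?_)).trans_eq (by ring : l.length * ξ + ξ = _))
    · exact (mul_le_of_le_one_left (norm_nonneg _) (ha j)).trans ih
    · exact (mul_le_of_le_one_right (norm_nonneg _) (norm_word_le_one ha l)).trans (hc j i)

theorem norm_perm_le (ha : ∀ i, ‖a i‖ ≤ 1) {ξ : ℝ} (hξ : 0 ≤ ξ)
    (hc : ∀ i j, ‖a i * a j - a j * a i‖ ≤ ξ) (l' : List (Fin n)) :
    ∀ l : List (Fin n), l.Perm l' →
      ‖(l.map a).prod - (l'.map a).prod‖ ≤ (l.length : ℝ) ^ 2 * ξ := by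
  induction l' with
  | nil =>
    intro l hl
    rw [List.perm_nil.1 hl]
    simp
  | cons i l' ih =>
    intro l hl
    obtain ⟨u, v, rfl⟩ := List.append_of_mem (hl.mem_iff.2 List.mem_cons_self)
    have hp : (u ++ v).Perm l' := List.Perm.cons_inv (List.perm_middle.symm.trans hl)
    set U := (u.map a).prod with hU
    set V := (v.map a).prod with hV
    set L := (l'.map a).prod with hL
    have h1 := ih _ hp
    have e : ((u ++ i :: v).map a).prod - ((i :: l').map a).prod =
        (U * a i - a i * U) * V + a i * (((u ++ v).map a).prod - L) := by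
      simp only [List.map_append, List.map_cons, List.prod_append, List.prod_cons, ← hU, ← hV,
        ← hL]
      noncomm_ring
    have hlen : ((u ++ i :: v).length : ℝ) = ((u ++ v).length : ℝ) + 1 := by simp [add_assoc]
    have hu : (u.length : ℝ) ≤ ((u ++ v).length : ℝ) := by simp
    rw [e, hlen]
    refine (norm_add_le _ _).trans ((add_le_add ((norm_mul_le _ _).trans ?_)
      ((norm_mul_le _ _).trans ?_)).trans (?_ : (u.length : ℝ) * ξ +
        ((u ++ v).length : ℝ) ^ 2 * ξ ≤ _))
    · exact (mul_le_of_le_one_right (norm_nonneg _) (norm_word_le_one ha v)).trans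
        (norm_commutator_word_le ha hξ hc i u)
    · exact (mul_le_of_le_one_left (norm_nonneg _) (ha i)).trans h1
    · nlinarith [mul_le_mul_of_nonneg_right hu hξ, Nat.cast_nonneg (α := ℝ) (u ++ v).length,
        mul_nonneg (Nat.cast_nonneg (α := ℝ) (u ++ v).length) hξ]

omit [Nontrivial A] in
theorem sum_pow_eq_words (a : Fin n → A) (M : ℕ) :
    (∑ i, a i) ^ M = ∑ f : Fin M → Fin n, ((List.ofFn f).map a).prod := by
  induction M with
  | zero => simp
  | succ M ih =>
    rw [pow_succ', ih, ← Fintype.sum_equiv (Fin.consEquiv fun _ : Fin (M + 1) => Fin n)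
      (fun p => a p.1 * ((List.ofFn p.2).map a).prod) _
      (fun p => by simp [Fin.consEquiv, List.ofFn_succ]), Fintype.sum_prod_type, Finset.sum_mul]
    simp only [Finset.mul_sum]

theorem card_small_words (n k M : ℕ) :
    (Finset.univ.filter fun f : Fin M → Fin n => (Finset.univ.image f).card ≤ k).card
      ≤ 2 ^ n * k ^ M := by
  classical
  refine (Finset.card_le_card (t := (Finset.univ.filter fun T : Finset (Fin n) => T.card ≤ k).biUnion
    fun T => Fintype.piFinset fun _ : Fin M => T) fun f hf => ?_).trans ?_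
  · simp only [Finset.mem_biUnion, Finset.mem_filter, Finset.mem_univ, true_and] at hf ⊢
    exact ⟨Finset.univ.image f, hf, Fintype.mem_piFinset.2 fun i => by simp⟩
  · refine Finset.card_biUnion_le.trans ?_
    refine (Finset.sum_le_card_nsmul _ _ (k ^ M) fun T hT => ?_).trans ?_
    · simp only [Finset.mem_filter] at hT
      rw [Fintype.card_piFinset]
      simpa using Nat.pow_le_pow_left hT.2 M
    · rw [smul_eq_mul]
      refine Nat.mul_le_mul_right _ ((Finset.card_filter_le _ _).trans ?_)
      simp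

end words

/-- Almost commuting self-adjoint contractions whose products over `k + 1` indices are small. -/
theorem exists_layer_bound (A : Type*) [CStarAlgebra A] [Nontrivial A] (n k : ℕ) :
    ∃ ξ : ℝ, 0 < ξ ∧ ∀ a : Fin n → A, (∀ i, IsSelfAdjoint (a i)) → (∀ i, ‖a i‖ ≤ 1) →
      (∀ i j, ‖a i * a j - a j * a i‖ < ξ) →
      (∀ S : Finset (Fin n), S.card = k + 1 →
        ∃ L : List (Fin n), L.Nodup ∧ L.toFinset = S ∧ ‖(L.map a).prod‖ < ξ) →
      ‖∑ i, a i‖ ≤ 2 * (k + 1) := by
  classical
  set M : ℕ := 2 ^ (n + 1) with hM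
  have hnM : n + 1 ≤ M := Nat.lt_two_pow_self.le
  set ξ : ℝ := 1 / ((n : ℝ) ^ M * ((M : ℝ) ^ 2 + 1) + 1) with hξ
  have hξ0 : 0 < ξ := by positivity
  refine ⟨ξ, hξ0, fun a hs ha hc hsmall => ?_⟩
  set B := Finset.univ.filter fun f : Fin M → Fin n => (Finset.univ.image f).card ≤ k with hB
  have hword : ∀ f : Fin M → Fin n, f ∉ B →
      ‖((List.ofFn f).map a).prod‖ ≤ ((M : ℝ) ^ 2 + 1) * ξ := fun f hf => by
    simp only [hB, Finset.mem_filter, Finset.mem_univ, true_and, not_le] at hf
    obtain ⟨S, hSf, hS⟩ := Finset.exists_subset_card_eq (Nat.succ_le_of_lt hf)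
    obtain ⟨L, hLn, hLS, hL⟩ := hsmall S hS
    have hsub : L.Subperm (List.ofFn f) := hLn.subperm fun i hi => by
      have := hSf (hLS ▸ List.mem_toFinset.2 hi)
      simpa [List.mem_ofFn, eq_comm] using this
    obtain ⟨r, hr⟩ : ∃ r, (List.ofFn f).Perm (L ++ r) :=
      ⟨(List.ofFn f).diff L, (List.subperm_append_diff_self_of_count_le fun x _ =>
        hsub.count_le x).symm⟩
    have h1 := norm_perm_le ha hξ0.le (fun i j => (hc i j).le) _ _ hr
    have h2 : ‖((L ++ r).map a).prod‖ ≤ ξ := by
      rw [List.map_append, List.prod_append]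
      exact ((norm_mul_le _ _).trans
        (mul_le_of_le_one_right (norm_nonneg _) (norm_word_le_one ha r))).trans hL.le
    have h3 := norm_le_norm_add_norm_sub' ((List.ofFn f).map a).prod ((L ++ r).map a).prod
    rw [List.length_ofFn] at h1
    linarith
  have hSn : ‖∑ i, a i‖ ^ M = ‖(∑ i, a i) ^ M‖ := by
    have h : IsSelfAdjoint (∑ i, a i) := by
      simp only [isSelfAdjoint_iff, star_sum, fun i => (hs i).star_eq]
    simpa [hM] using (congrArg NNReal.toReal (h.nnnorm_pow_two_pow (n + 1))).symm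
  have hbound : ‖∑ i, a i‖ ^ M ≤ 2 ^ n * (k : ℝ) ^ M + 1 := by
    rw [hSn, sum_pow_eq_words, ← Finset.sum_add_sum_compl B]
    refine (norm_add_le _ _).trans (add_le_add ?_ ?_)
    · refine (norm_sum_le _ _).trans ((Finset.sum_le_card_nsmul _ _ 1 fun f _ =>
        norm_word_le_one ha _).trans ?_)
      rw [nsmul_one]
      exact_mod_cast card_small_words n k M
    · refine (norm_sum_le _ _).trans ((Finset.sum_le_card_nsmul _ _ _ fun f hf =>
        hword f (Finset.mem_compl.1 hf)).trans ?_)
      rw [nsmul_eq_mul]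
      have hcard : ((Bᶜ).card : ℝ) ≤ (n : ℝ) ^ M := by
        exact_mod_cast (Finset.card_le_univ _).trans_eq (by simp)
      refine (mul_le_mul_of_nonneg_right hcard (by positivity)).trans ?_
      rw [hξ, ← mul_assoc, mul_one_div, div_le_one (by positivity)]
      linarith
  refine le_of_pow_le_pow_left₀ (by positivity : M ≠ 0) (by positivity) (hbound.trans ?_)
  have h1 : (k : ℝ) ^ M + 1 ≤ ((k : ℝ) + 1) ^ M := by
    simpa using pow_add_pow_le (Nat.cast_nonneg (α := ℝ) k) zero_le_one (by positivity : M ≠ 0)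
  have h2 : (2 : ℝ) ^ n ≤ 2 ^ M := pow_le_pow_right₀ one_le_two (by omega)
  have h3 : (1 : ℝ) ≤ 2 ^ n := one_le_pow₀ one_le_two
  rw [mul_pow]
  calc (2 : ℝ) ^ n * (k : ℝ) ^ M + 1 ≤ 2 ^ n * ((k : ℝ) ^ M + 1) := by linarith
    _ ≤ _ := mul_le_mul h2 h1 (by positivity) (by positivity)

end Vale.Agent.P133
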