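import Vale.Agent.P133.Dim.QC

/-!
P133: away from any closed ideal there is a piece of `y C y` with bounded total weight on given
almost orthogonal copies. The proof picks, for one copy after the other, a right ideal in which
the weight of that copy is almost constant modulo the ideal.
-/

namespace Vale.Agent.P133

open scoped ComplexOrder

set_option linter.unusedSectionVars false

variable {C : Type*} [NonUnitalCStarAlgebra C] [PartialOrder C] [StarOrderedRing C]
variable {J : Submodule ℂ C}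

theorem norm_sub_mul_le {r : C} (hr : ‖r‖ ≤ 1) (w : C) :
    ‖w - r * w‖ ≤ 2 * ‖w‖ ∧ ‖w - w * r‖ ≤ 2 * ‖w‖ := by
  have h1 := (norm_mul_le r w).trans (mul_le_of_le_one_left (norm_nonneg w) hr)
  have h2 := (norm_mul_le w r).trans (mul_le_of_le_one_right (norm_nonneg w) hr)
  constructor <;> linarith [norm_sub_le w (r * w), norm_sub_le w (w * r)]

theorem weight_sub_norm_le {v t t' r : C} {M ξ : ℝ} (hr : ‖r‖ ≤ 1) (hrs : star r = r)
    (hM : 2 ≤ M) (hξ : 0 ≤ ξ) (hv : ‖v‖ ≤ M) (ht : ‖t‖ ≤ M) (ht' : ‖t'‖ ≤ 4)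
    (hd : ‖t' - (t - r * t)‖ ≤ M * ξ) (hc : ‖r * v - v * r‖ ≤ ξ) :
    ‖star v * (t' * star t') * v - (star v - r * star v) * (t * star t) * (v - v * r)‖ ≤
      20 * (M ^ 4 * ξ) := by
  set a := star v * t' with ha
  set b := (star v - r * star v) * t with hb
  have e1 : star v * (t' * star t') * v = a * star a := by
    simp only [ha, star_mul, star_star, mul_assoc]
  have e2 : (star v - r * star v) * (t * star t) * (v - v * r) = b * star b := by
    simp only [hb, star_mul, star_sub, star_star, hrs, mul_assoc]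
  have hab : a - b = star v * (t' - (t - r * t)) + (r * star v - star v * r) * t := by
    simp only [ha, hb, mul_sub, sub_mul, mul_assoc]; abel
  have hc' : ‖r * star v - star v * r‖ ≤ ξ := by
    rw [← norm_star, star_sub, star_mul, star_mul, star_star, hrs, norm_sub_rev]; exact hc
  have hM0 : 0 ≤ M := by linarith
  have hM2 : M ≤ M ^ 2 := by nlinarith
  have hMM : 1 ≤ M := by linarith
  have h1 : ‖a - b‖ ≤ 2 * (M ^ 2 * ξ) := by
    rw [hab]
    refine (norm_add_le _ _).trans ?_
    have k1 := (norm_mul_le (star v) (t' - (t - r * t))).trans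
      (mul_le_mul ((norm_star _).le.trans hv) hd (norm_nonneg _) hM0)
    have k2 := (norm_mul_le (r * star v - star v * r) t).trans
      (mul_le_mul hc' ht (norm_nonneg _) hξ)
    have k3 := mul_le_mul_of_nonneg_right hM2 hξ
    have k4 : M * (M * ξ) = M ^ 2 * ξ := by ring
    linarith
  have hna : ‖a‖ ≤ 2 * M ^ 2 := by
    refine (norm_mul_le _ _).trans ?_
    rw [norm_star]
    exact (mul_le_mul hv ht' (norm_nonneg _) hM0).trans (by nlinarith)
  have hnb : ‖b‖ ≤ 2 * M ^ 2 := by
    refine (norm_mul_le _ _).trans ?_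
    exact (mul_le_mul ((norm_sub_mul_le hr _).1.trans
      (mul_le_mul_of_nonneg_left ((norm_star _).le.trans hv) zero_le_two)) ht
      (norm_nonneg _) (by positivity)).trans (le_of_eq (by ring))
  rw [e1, e2, show a * star a - b * star b = (a - b) * star a + b * star (a - b) by
    simp only [star_sub, sub_mul, mul_sub]; abel]
  refine (norm_add_le _ _).trans ?_
  have k1 := (norm_mul_le (a - b) (star a)).trans
    (mul_le_mul h1 ((norm_star _).le.trans hna) (norm_nonneg _) (by positivity))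
  have k2 := (norm_mul_le b (star (a - b))).trans
    (mul_le_mul hnb ((norm_star _).le.trans h1) (norm_nonneg _) (by positivity))
  have k3 : 0 ≤ M ^ 4 * ξ := by positivity
  have k4 : 2 * (M ^ 2 * ξ) * (2 * M ^ 2) = 4 * (M ^ 4 * ξ) := by ring
  have k5 : 2 * M ^ 2 * (2 * (M ^ 2 * ξ)) = 4 * (M ^ 4 * ξ) := by ring
  linarith

/-- A quasi-central unit brings a positive element down to a bound it has modulo the ideal. -/
theorem norm_unit_cut_le {Y R r : C} {c M ξ : ℝ} (hr : ‖r‖ ≤ 1) (hR : ‖R‖ ≤ 1)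
    (hY : ‖Y‖ ≤ M) (hξ : 0 ≤ ξ) (hc : ‖Y - R * Y - Y * R + R * Y * R‖ ≤ c)
    (h1 : ‖r * R - R‖ ≤ ξ) (h2 : ‖R * r - R‖ ≤ ξ) :
    ‖Y - r * Y - Y * r + r * Y * r‖ ≤ 4 * c + 6 * (M * ξ) := by
  set Yd := Y - R * Y - Y * R + R * Y * R with hYd
  set W := Yd - r * Yd with hW
  have e : Y - r * Y - Y * r + r * Y * r = (W - W * r) + ((R - r * R) * (Y - Y * R) -
      (R - r * R) * (Y - Y * R) * r) + ((Y - r * Y) * (R - R * r)) := by
    simp only [hW, hYd, sub_mul, mul_sub, mul_assoc, add_mul, mul_add]; abel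
  have hM : 0 ≤ M := (norm_nonneg _).trans hY
  have k1 : ‖W - W * r‖ ≤ 4 * c := by
    linarith [(norm_sub_mul_le hr W).2, (norm_sub_mul_le hr Yd).1]
  have k2 : ‖(R - r * R) * (Y - Y * R) - (R - r * R) * (Y - Y * R) * r‖ ≤ 4 * (M * ξ) := by
    refine (norm_sub_mul_le hr _).2.trans ?_
    have := (norm_mul_le (R - r * R) (Y - Y * R)).trans
      (mul_le_mul ((norm_sub_rev _ _).le.trans h1) ((norm_sub_mul_le hR Y).2.trans
        (mul_le_mul_of_nonneg_left hY zero_le_two)) (norm_nonneg _) hξ)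
    linarith
  have k3 : ‖(Y - r * Y) * (R - R * r)‖ ≤ 2 * (M * ξ) := by
    have := (norm_mul_le (Y - r * Y) (R - R * r)).trans
      (mul_le_mul ((norm_sub_mul_le hr Y).1.trans (mul_le_mul_of_nonneg_left hY zero_le_two))
        ((norm_sub_rev _ _).le.trans h2) (norm_nonneg _) (by positivity))
    linarith
  rw [e]
  linarith [norm_add₃_le (a := W - W * r)
    (b := (R - r * R) * (Y - Y * R) - (R - r * R) * (Y - Y * R) * r)
    (c := (Y - r * Y) * (R - R * r))]

theorem qn_eq_of_sub_mem (hJ : IsStarIdeal J) {u v : C} (h : u - v ∈ J) : qn J u = qn J v := by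
  have h1 := qn_add_le (J := J) v (u - v)
  have h2 := qn_add_le (J := J) u (v - u)
  rw [(qn_eq_zero hJ).2 h, add_zero, add_sub_cancel] at h1
  rw [(qn_eq_zero hJ).2 (show v - u ∈ J by rw [← neg_sub]; exact neg_mem h), add_zero,
    add_sub_cancel] at h2
  exact le_antisymm h1 h2

theorem qn_conj_le (hJ : IsStarIdeal J) (P t : C) :
    qn J (star t * P * t) ≤ qn J P * qn J t ^ 2 := by
  refine (qn_mul_le hJ _ _).trans ?_
  refine (mul_le_mul_of_nonneg_right (qn_mul_le hJ _ _) (qn_nonneg _)).trans (le_of_eq ?_)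
  rw [qn_star hJ]; ring

theorem exists_cutdown (hJ : IsStarIdeal J) (t : C) (hqt : qn J t ≤ 1) {γ : ℝ} (hγ : 0 < γ) :
    ∃ R ∈ J, ‖star (t - t * R) * (t - t * R)‖ ≤ 1 + γ / 16 := by
  set R := cfcₙ (ramp (1 + γ / 32) (1 + γ / 16)) (star t * t) with hR
  have hRs : star R = R :=
    (cfcₙ_predicate (ramp (1 + γ / 32) (1 + γ / 16)) (star t * t) : IsSelfAdjoint R).star_eq
  refine ⟨R, ?_, ?_⟩
  · refine cfc_mem_of_qn_lt hJ (IsSelfAdjoint.star_mul_self t) continuous_id rfl
      (show 0 < 1 + γ / 32 by positivity) ?_ (continuous_ramp _ _)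
      (ramp_zero (by linarith) (by positivity)) fun u _ hu => le_of_ramp_ne (by linarith) hu
    rw [cfcₙ_id ℝ (star t * t) (IsSelfAdjoint.star_mul_self t), qn_star_mul_self hJ]
    nlinarith [qn_nonneg (J := J) t]
  · have e : star (t - t * R) * (t - t * R) = star t * t - R * (star t * t) - star t * t * R +
        R * (star t * t) * R := by
      rw [star_sub, star_mul, hRs]; simp only [sub_mul, mul_sub, mul_assoc]; abel
    rw [e]
    exact norm_defect_le (star_mul_self_nonneg t) (by linarith) (by positivity)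

/-- The top of `t* P t`, cut by functional calculus. -/
theorem exists_top (hJ : IsStarIdeal J) {P t : C} (hP : 0 ≤ P) {lam γ : ℝ} (hγ : 0 < γ)
    (hbig : γ < lam) (hlam2 : lam ≤ 2) (hn : ‖star t * t‖ ≤ 1 + γ / 16)
    (hq : lam - γ / 2 < qn J (star t * P * t)) :
    ∃ f : C, 0 < qn J (t * f) ∧
      (lam - γ) • (star (t * f) * (t * f)) ≤ star (t * f) * P * (t * f) := by
  set K := star t * P * t with hK
  have hK0 : 0 ≤ K := star_left_conjugate_nonneg hP t
  set p := lam - 3 * γ / 4 with hp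
  set q := lam - γ / 2 with hqd
  set f := cfcₙ (ramp p q) K with hf
  have hpq : p < q := by rw [hp, hqd]; linarith
  have hp0 : 0 ≤ p := by rw [hp]; linarith
  have hfs : star f = f := (cfcₙ_predicate (ramp p q) K : IsSelfAdjoint f).star_eq
  have hrc := continuous_ramp p q
  have hr0 : ramp p q 0 = 0 := ramp_zero hpq hp0
  have hff : f * f = cfcₙ (fun u => ramp p q u * ramp p q u) K := by
    rw [hf, ← cfcₙ_mul _ _ K hrc.continuousOn hr0 hrc.continuousOn hr0]
  have hfKf : f * K * f = cfcₙ (fun u => ramp p q u * u * ramp p q u) K := cfcₙ_conj hK0 hrc hr0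
  have h3 : star (t * f) * P * (t * f) = f * K * f := by
    rw [hK, star_mul, hfs]; simp only [mul_assoc]
  have hlow : p • (f * f) ≤ f * K * f := by
    rw [hff, hfKf, ← cfcₙ_smul p (fun u => ramp p q u * ramp p q u) K (hrc.mul hrc).continuousOn
      (by simp [hr0])]
    refine cfcₙ_mono (fun u _ => ?_) ((hrc.mul hrc).const_smul p).continuousOn
      ((hrc.mul continuous_id).mul hrc).continuousOn (by simp [hr0]) (by simp [hr0])
    simp only [smul_eq_mul]
    by_cases h0 : ramp p q u = 0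
    · simp [h0]
    · nlinarith [le_of_ramp_ne hpq h0, mul_self_nonneg (ramp p q u)]
  refine ⟨f, ?_, ?_⟩
  · refine lt_of_le_of_ne (qn_nonneg _) fun h => ?_
    have hz : f * K * f ∈ J := by
      rw [← h3]; exact hJ.mul_left _ _ ((qn_eq_zero hJ).1 h.symm)
    have h1 := qn_le_norm_sub (x := K) hz
    have h2 : ‖K - f * K * f‖ ≤ q := by
      rw [hfKf]
      nth_rw 1 [← cfcₙ_id' ℝ K (IsSelfAdjoint.of_nonneg hK0)]
      rw [← cfcₙ_sub (fun u : ℝ => u) (fun u => ramp p q u * u * ramp p q u) K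
        continuous_id.continuousOn rfl ((hrc.mul continuous_id).mul hrc).continuousOn
        (by simp [hr0])]
      refine norm_cfcₙ_le fun u hu => ?_
      have hu0 := quasispectrum_nonneg_of_nonneg K hK0 u hu
      obtain ⟨h0, h1⟩ := ramp_mem p q u
      have e : u - ramp p q u * u * ramp p q u = u * (1 - ramp p q u * ramp p q u) := by ring
      have h2 : ramp p q u * ramp p q u ≤ 1 := mul_le_one₀ h1 h0 h1
      rw [e, Real.norm_of_nonneg (mul_nonneg hu0 (by linarith))]
      rcases le_total u q with h3 | h3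
      · exact (mul_le_of_le_one_right hu0 (by nlinarith)).trans h3
      · rw [ramp_of_ge hpq h3]; simp; linarith
    linarith
  · have h2 : star (t * f) * (t * f) ≤ (1 + γ / 16) • (f * f) := by
      have := CStarAlgebra.star_left_conjugate_le_norm_smul (a := f) (b := star t * t)
        (IsSelfAdjoint.star_mul_self t)
      rw [hfs] at this
      rw [star_mul, hfs, show f * star t * (t * f) = f * (star t * t) * f by
        simp only [mul_assoc]]
      exact this.trans (smul_le_smul_of_nonneg_right hn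
        (IsSelfAdjoint.mul_self_nonneg (hfs : IsSelfAdjoint f)))
    rw [h3]
    refine (smul_le_smul_of_nonneg_left h2 (by linarith)).trans (le_trans ?_ hlow)
    rw [smul_smul]
    exact smul_le_smul_of_nonneg_right (by rw [hp]; nlinarith)
      (IsSelfAdjoint.mul_self_nonneg (hfs : IsSelfAdjoint f))

/-- One compression: inside `G C`, the ratio of `P` is almost constant modulo `J`. -/
theorem exists_compress (hJ : IsStarIdeal J) {G P : C} (hP : 0 ≤ P) (hP2 : ‖P‖ ≤ 2)
    (hG : 0 < qn J G) {γ : ℝ} (hγ : 0 < γ) :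
    ∃ (k : C) (lam : ℝ), 0 ≤ lam ∧ 0 < qn J (G * k) ∧
      (∀ c, qn J (star (G * k * c) * P * (G * k * c)) ≤ lam * qn J (G * k * c) ^ 2) ∧
      ∀ c, (lam - γ) • (star (G * k * c) * (G * k * c)) ≤
        star (G * k * c) * P * (G * k * c) := by
  set B : Set ℝ := {r | ∃ c, 0 < qn J (G * c) ∧
    r = qn J (star (G * c) * P * (G * c)) / qn J (G * c) ^ 2} with hB
  set lam := sSup B with hlam
  have hGG : 0 < qn J (G * star G) := by rw [qn_mul_star_self hJ]; positivity
  have hBne : B.Nonempty := ⟨_, star G, hGG, rfl⟩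
  have hBle : ∀ r ∈ B, r ≤ 2 := by
    rintro _ ⟨c, hc, rfl⟩
    rw [div_le_iff₀ (by positivity)]
    exact (qn_conj_le hJ P _).trans
      (mul_le_mul_of_nonneg_right ((qn_le_norm P).trans hP2) (sq_nonneg _))
  have hBb : BddAbove B := ⟨2, hBle⟩
  have hlam2 : lam ≤ 2 := csSup_le hBne hBle
  have hup : ∀ c, qn J (star (G * c) * P * (G * c)) ≤ lam * qn J (G * c) ^ 2 := fun c => by
    rcases (qn_nonneg (J := J) (G * c)).eq_or_lt with h | h
    · have h1 := qn_conj_le hJ P (G * c)
      rw [← h, zero_pow two_ne_zero, mul_zero] at h1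
      rw [← h, zero_pow two_ne_zero, mul_zero]
      exact h1
    · rw [← div_le_iff₀ (by positivity)]
      exact le_csSup hBb ⟨c, h, rfl⟩
  have hlam0 : 0 ≤ lam := le_trans (div_nonneg (qn_nonneg _) (sq_nonneg _))
    (le_csSup hBb ⟨star G, hGG, rfl⟩)
  rcases le_or_gt lam γ with hsmall | hbig
  · refine ⟨star G, lam, hlam0, hGG, fun c => ?_, fun c => ?_⟩
    · rw [mul_assoc G (star G) c]; exact hup _
    · exact (smul_nonpos_of_nonpos_of_nonneg (sub_nonpos.2 hsmall) (star_mul_self_nonneg _)).trans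
        (star_left_conjugate_nonneg hP _)
  obtain ⟨r, ⟨c₀, hc₀, rfl⟩, hr⟩ := exists_lt_of_lt_csSup hBne
    (show lam - γ / 2 < lam by linarith)
  set s := (qn J (G * c₀))⁻¹ with hs
  have hs0 : 0 ≤ s := (inv_pos.2 hc₀).le
  set t := G * (s • c₀) with htdef
  have ht : t = s • (G * c₀) := mul_smul_comm s G c₀
  have hqt : qn J t ≤ 1 := by
    rw [ht]
    refine (qn_smul_le _).trans (le_of_eq ?_)
    rw [abs_of_nonneg hs0, hs, inv_mul_cancel₀ hc₀.ne']
  obtain ⟨R, hRJ, hRn⟩ := exists_cutdown hJ t hqt hγ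
  set t' := t - t * R with ht'
  have hmem : t' - t ∈ J := by
    rw [ht', sub_sub_cancel_left]; exact neg_mem (hJ.mul_left t R hRJ)
  have hqK : lam - γ / 2 < qn J (star t' * P * t') := by
    have e : qn J (star t' * P * t') = qn J (star t * P * t) := by
      refine qn_eq_of_sub_mem hJ ?_
      have : star t' * P * t' - star t * P * t =
          star (t' - t) * (P * t') + star t * P * (t' - t) := by
        simp only [star_sub, sub_mul, mul_sub, mul_assoc]; abel
      rw [this]
      exact add_mem (hJ.mul_right _ _ (hJ.star_mem _ hmem)) (hJ.mul_left _ _ hmem)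
    rw [e]
    refine lt_of_lt_of_le hr ?_
    have h1 : G * c₀ = qn J (G * c₀) • t := by
      rw [ht, smul_smul, hs, mul_inv_cancel₀ hc₀.ne', one_smul]
    have h2 : star (G * c₀) * P * (G * c₀) =
        (qn J (G * c₀) * qn J (G * c₀)) • (star t * P * t) := by
      conv_lhs => rw [h1]
      simp only [star_smul, star_trivial, smul_mul_assoc, mul_smul_comm, smul_smul]
    rw [div_le_iff₀ (pow_pos hc₀ 2), h2]
    refine (qn_smul_le _).trans (le_of_eq ?_)
    rw [abs_of_nonneg (mul_self_nonneg _)]; ring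
  obtain ⟨f, hf0, hflo⟩ := exists_top hJ hP hγ hbig hlam2 hRn hqK
  have hG' : G * (s • c₀ * f - s • c₀ * R * f) = t' * f := by
    rw [ht', htdef]; simp only [mul_sub, sub_mul, mul_assoc]
  refine ⟨s • c₀ * f - s • c₀ * R * f, lam, hlam0, by rw [hG']; exact hf0, fun c => ?_,
    fun c => ?_⟩
  · rw [mul_assoc G _ c]; exact hup _
  · rw [hG']
    have h4 := star_left_conjugate_le_conjugate hflo c
    rw [mul_smul_comm, smul_mul_assoc] at h4
    simpa only [star_mul, mul_assoc] using h4

/-- Compression for finitely many copies. -/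
theorem exists_compress_all (hJ : IsStarIdeal J) {y : C} (hyJ : y ∉ J) {γ : ℝ} (hγ : 0 < γ) :
    ∀ {n : ℕ} (P : Fin n → C), (∀ i, 0 ≤ P i) → (∀ i, ‖P i‖ ≤ 2) →
      ∃ (k : C) (lam : Fin n → ℝ), 0 < qn J (y * k) ∧ ∀ c,
        (∀ i, qn J (star (y * k * c) * P i * (y * k * c)) ≤ lam i * qn J (y * k * c) ^ 2) ∧
        ∀ i, (lam i - γ) • (star (y * k * c) * (y * k * c)) ≤
          star (y * k * c) * P i * (y * k * c) := by
  intro n
  induction n with
  | zero =>
    intro P _ _
    refine ⟨star y, Fin.elim0, ?_, fun c => ⟨fun i => i.elim0, fun i => i.elim0⟩⟩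
    rw [qn_mul_star_self hJ]
    have : qn J y ≠ 0 := fun h => hyJ ((qn_eq_zero hJ).1 h)
    positivity
  | succ n ih =>
    intro P hP hP2
    obtain ⟨k, lam, hk, hc⟩ := ih (fun i => P i.succ) (fun i => hP _) fun i => hP2 _
    obtain ⟨k', l, -, hk', hup, hlo⟩ := exists_compress hJ (hP 0) (hP2 0) hk hγ
    refine ⟨k * k', Fin.cons l lam, by rwa [← mul_assoc], fun c => ?_⟩
    simp only [← mul_assoc y k k']
    refine ⟨Fin.cases (hup c) fun i => ?_, Fin.cases (hlo c) fun i => ?_⟩
    · simp only [Fin.cons_succ, mul_assoc (y * k) k' c]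
      exact (hc _).1 i
    · simp only [Fin.cons_succ, mul_assoc (y * k) k' c]
      exact (hc _).2 i

set_option maxHeartbeats 1600000 in
/-- The local piece. -/
theorem exists_local (hJ : IsStarIdeal J) {y : C} (hyJ : y ∉ J)
    {N : ℕ} (v : Fin N → C) (hv : ‖∑ i, v i * star (v i)‖ ≤ 2) :
    ∃ k : C, ‖y * k‖ ≤ 4 ∧ ‖∑ i, star (v i) * ((y * k) * star (y * k)) * v i‖ ≤ 16 ∧
      cut (1 / 2) ((y * k) * star (y * k)) ∉ J := by
  set P : Fin N → C := fun i => v i * star (v i) with hP
  have hP0 : ∀ i, 0 ≤ P i := fun i => mul_star_self_nonneg _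
  have hP2 : ∀ i, ‖P i‖ ≤ 2 := fun i => le_trans
    (CStarAlgebra.norm_le_norm_of_nonneg_of_le (hP0 i)
      (Finset.single_le_sum (f := P) (fun j _ => hP0 j) (Finset.mem_univ i))) hv
  set γ : ℝ := 1 / (4 * ((N : ℝ) + 1)) with hγ
  obtain ⟨k₀, lam, hk₀, hc⟩ := exists_compress_all hJ hyJ (show 0 < γ by positivity) P hP0 hP2
  have hk2 : 0 < qn J (y * k₀ * star (y * k₀)) := by rw [qn_mul_star_self hJ]; positivity
  set s := (qn J (y * k₀ * star (y * k₀)))⁻¹ with hs
  set c := s • star (y * k₀) with hcdef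
  have hyc : y * k₀ * c = s • (y * k₀ * star (y * k₀)) := mul_smul_comm s _ _
  set k := k₀ * c with hkdef
  set t := y * k with ht
  have htc : y * k₀ * c = t := by rw [ht, hkdef, mul_assoc]
  have hq1 : qn J t = 1 := by
    rw [← htc, hyc]
    refine le_antisymm ((qn_smul_le _).trans (le_of_eq ?_)) ?_
    · rw [abs_of_nonneg (by positivity), hs, inv_mul_cancel₀ hk2.ne']
    · have h := qn_smul_le (J := J) (r := s⁻¹) (s • (y * k₀ * star (y * k₀)))
      rw [smul_smul, inv_mul_cancel₀ (by positivity), one_smul, abs_of_nonneg (by positivity),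
        hs, inv_inv] at h
      nlinarith
  have hup : ∀ i, qn J (star t * P i * t) ≤ lam i := fun i => by
    have := (hc c).1 i
    rwa [htc, hq1, one_pow, mul_one] at this
  -- the weights add up to at most `9 / 4`
  have hsum : ∑ i, lam i ≤ 9 / 4 := by
    set r := ∑ i, (lam i - γ) with hr
    have hrle : r ≤ 2 := by
      rcases le_or_gt r 0 with h | h
      · linarith
      have h1 : r • (star t * t) ≤ star t * (∑ i, P i) * t := by
        rw [hr, Finset.sum_smul, Finset.mul_sum, Finset.sum_mul]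
        refine Finset.sum_le_sum fun i _ => ?_
        have := (hc c).2 i
        rwa [htc] at this
      have h2 := (qn_le_of_le hJ (smul_nonneg h.le (star_mul_self_nonneg t)) h1).trans
        ((qn_conj_le hJ _ t).trans
          (mul_le_mul_of_nonneg_right ((qn_le_norm _).trans hv) (sq_nonneg _)))
      have h3 := qn_smul_le (J := J) (r := r⁻¹) (r • (star t * t))
      rw [smul_smul, inv_mul_cancel₀ h.ne', one_smul, qn_star_mul_self hJ, hq1,
        abs_of_nonneg (by positivity)] at h3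
      rw [hq1] at h2
      nlinarith [mul_inv_cancel₀ h.ne', inv_pos.2 h, qn_nonneg (J := J) (r • (star t * t))]
    have h4 : ∑ i, lam i = r + N * γ := by simp [hr, Finset.sum_sub_distrib]
    have h5 : (N : ℝ) * γ ≤ 1 / 4 := by
      rw [hγ, mul_one_div, div_le_div_iff₀ (by positivity) (by norm_num)]; linarith
    linarith
  set Y := ∑ i, star (v i) * (t * star t) * v i with hY
  have hY0 : 0 ≤ Y := Finset.sum_nonneg fun i _ =>
    star_left_conjugate_nonneg (mul_star_self_nonneg t) _
  have hqY : qn J Y ≤ 9 / 4 := by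
    have hsub : ∀ (s : Finset (Fin N)) (w : Fin N → C),
        qn J (∑ i ∈ s, w i) ≤ ∑ i ∈ s, qn J (w i) := fun s w => by
      classical
      induction s using Finset.induction with
      | empty => simp [(qn_eq_zero hJ).2 (zero_mem J)]
      | insert i s hi ih =>
        rw [Finset.sum_insert hi, Finset.sum_insert hi]
        exact (qn_add_le _ _).trans (add_le_add le_rfl ih)
    refine (hsub _ _).trans (le_trans (Finset.sum_le_sum fun i _ => ?_) hsum)
    have e1 : star (v i) * (t * star t) * v i = star (v i) * t * star (star (v i) * t) := by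
      simp only [star_mul, star_star, mul_assoc]
    have e2 : star (star (v i) * t) * (star (v i) * t) = star t * P i * t := by
      simp only [hP, star_mul, star_star, mul_assoc]
    rw [e1, qn_mul_star_self hJ, ← qn_star_mul_self hJ, e2]
    exact hup i
  -- cutting down by a quasi-central unit
  set R1 := cfcₙ (ramp (3 / 2) 2) (star t * t) with hR1
  set R2 := cfcₙ (ramp 3 (7 / 2)) Y with hR2
  have hR1s : star R1 = R1 :=
    (cfcₙ_predicate (ramp (3 / 2) 2) (star t * t) : IsSelfAdjoint R1).star_eq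
  have hR2s : star R2 = R2 := (cfcₙ_predicate (ramp 3 (7 / 2)) Y : IsSelfAdjoint R2).star_eq
  have hR1n : ‖R1‖ ≤ 1 := by
    rw [hR1]
    refine norm_cfcₙ_le fun u _ => ?_
    obtain ⟨h0, h1⟩ := ramp_mem (3 / 2) 2 u
    rw [Real.norm_of_nonneg h0]; exact h1
  have hR2n : ‖R2‖ ≤ 1 := by
    rw [hR2]
    refine norm_cfcₙ_le fun u _ => ?_
    obtain ⟨h0, h1⟩ := ramp_mem 3 (7 / 2) u
    rw [Real.norm_of_nonneg h0]; exact h1
  have hR1J : R1 ∈ J := by
    refine cfc_mem_of_qn_lt hJ (IsSelfAdjoint.star_mul_self t) continuous_id rfl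
      (show (0 : ℝ) < 3 / 2 by norm_num) ?_ (continuous_ramp _ _)
      (ramp_zero (by norm_num) (by norm_num)) fun u _ hu => le_of_ramp_ne (by norm_num) hu
    rw [cfcₙ_id ℝ (star t * t) (IsSelfAdjoint.star_mul_self t), qn_star_mul_self hJ, hq1]; norm_num
  have hR2J : R2 ∈ J := by
    refine cfc_mem_of_qn_lt hJ (IsSelfAdjoint.of_nonneg hY0) continuous_id rfl
      (show (0 : ℝ) < 3 by norm_num) ?_ (continuous_ramp _ _)
      (ramp_zero (by norm_num) (by norm_num)) fun u _ hu => le_of_ramp_ne (by norm_num) hu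
    rw [cfcₙ_id ℝ Y (IsSelfAdjoint.of_nonneg hY0)]; linarith only [hqY]
  set M := ‖t‖ + ‖k‖ + ‖y‖ + ‖Y‖ + (∑ i, ‖v i‖) + 2 with hM
  have hvi : ∀ i, ‖v i‖ ≤ ∑ j, ‖v j‖ := fun i =>
    Finset.single_le_sum (f := fun j => ‖v j‖) (fun j _ => norm_nonneg _) (Finset.mem_univ i)
  have hsv : 0 ≤ ∑ i, ‖v i‖ := Finset.sum_nonneg fun i _ => norm_nonneg _
  have hM1 : 2 ≤ M := by
    rw [hM]; linarith [norm_nonneg t, norm_nonneg k, norm_nonneg y, norm_nonneg Y]
  set ξ := 1 / (40 * ((N : ℝ) + 1) * M ^ 4) with hξ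
  have hξ0 : 0 < ξ := by positivity
  classical
  obtain ⟨r, hrJ, hr0, hr1, hrZ, hrS⟩ := exists_quasiCentral hJ {R1, R2}
    (by simp [hR1J, hR2J]) (insert t (insert y (Finset.univ.image v ∪
      Finset.univ.image fun i => star (v i)))) hξ0
  have hrs : star r = r := (IsSelfAdjoint.of_nonneg hr0).star_eq
  have hrt : ‖r * t - t * r‖ ≤ ξ := (hrS t (by simp)).le
  have hry : ‖r * y - y * r‖ ≤ ξ := (hrS y (by simp)).le
  have hrv : ∀ i, ‖r * v i - v i * r‖ ≤ ξ := fun i => (hrS _ (by simp)).le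
  set t' := y * (k - r * k) with ht'
  set τ := t - r * t with hτ
  have hdiff : ‖t' - τ‖ ≤ M * ξ := by
    have e : t' - τ = (r * y - y * r) * k := by
      simp only [ht', hτ, ht, mul_sub, sub_mul, mul_assoc]; abel
    rw [e]
    calc ‖(r * y - y * r) * k‖ ≤ ξ * ‖k‖ :=
          (norm_mul_le _ _).trans (mul_le_mul_of_nonneg_right hry (norm_nonneg _))
      _ ≤ M * ξ := by
          rw [hM]; nlinarith [norm_nonneg t, norm_nonneg y, norm_nonneg Y, norm_nonneg k]
  have hMξ : M ^ 4 * ξ * ((N : ℝ) + 1) = 1 / 40 := by rw [hξ]; field_simp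
  have hpow : ∀ n ≤ 4, M ^ n * ξ ≤ 1 / 40 := fun n hn => by
    have h1 : M ^ n ≤ M ^ 4 := pow_le_pow_right₀ (by linarith) hn
    have h2 : M ^ 4 * ξ ≤ M ^ 4 * ξ * ((N : ℝ) + 1) :=
      le_mul_of_one_le_right (by positivity) (by linarith [Nat.cast_nonneg (α := ℝ) N])
    linarith [mul_le_mul_of_nonneg_right h1 hξ0.le]
  have hτn : ‖τ‖ ≤ 3 + 2 * (M * ξ) := by
    have h1 : ‖t - t * R1‖ ≤ 17 / 12 := by
      have e : star (t - t * R1) * (t - t * R1) = star t * t - R1 * (star t * t) -
          star t * t * R1 + R1 * (star t * t) * R1 := by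
        simp only [star_sub, star_mul, hR1s, sub_mul, mul_sub, mul_assoc]; abel
      have h := norm_defect_le (star_mul_self_nonneg t) (show (3 / 2 : ℝ) < 2 by norm_num)
        (by norm_num)
      rw [← hR1, ← e, CStarRing.norm_star_mul_self] at h
      nlinarith [norm_nonneg (t - t * R1)]
    have e : τ = (t - t * R1) - (t - t * R1) * r + t * (R1 - R1 * r) + (t * r - r * t) := by
      simp only [hτ, sub_mul, mul_sub, mul_assoc]; abel
    rw [e]
    have h2 := (norm_sub_mul_le hr1 (t - t * R1)).2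
    have h3 : ‖t * (R1 - R1 * r)‖ ≤ M * ξ := by
      refine (norm_mul_le _ _).trans (mul_le_mul ?_ ?_ (norm_nonneg _) (by linarith))
      · rw [hM]; linarith [norm_nonneg k, norm_nonneg y, norm_nonneg Y]
      · rw [norm_sub_rev]; exact (hrZ R1 (by simp)).2.le
    have h4 : ‖t * r - r * t‖ ≤ M * ξ := by
      rw [norm_sub_rev]; exact hrt.trans (le_mul_of_one_le_left hξ0.le (by linarith))
    linarith [norm_add₃_le (a := (t - t * R1) - (t - t * R1) * r) (b := t * (R1 - R1 * r))
      (c := t * r - r * t)]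
  have hMξ1 : M * ξ ≤ 1 / 40 := by simpa using hpow 1 (by norm_num)
  have ht'n : ‖t'‖ ≤ 4 := by linarith [norm_le_norm_add_norm_sub' t' τ]
  refine ⟨k - r * k, ht'n, ?_, fun hcut => ?_⟩
  · -- total weight
    have hτM : ‖τ‖ ≤ 4 := by linarith
    set Y1 := ∑ i, (star (v i) - r * star (v i)) * (t * star t) * (v i - v i * r) with hY1
    have hY1' : Y1 = Y - r * Y - Y * r + r * Y * r := by
      simp only [hY1, hY, Finset.mul_sum, Finset.sum_mul, ← Finset.sum_sub_distrib,
        ← Finset.sum_add_distrib]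
      exact Finset.sum_congr rfl fun i _ => by simp only [sub_mul, mul_sub, mul_assoc]; abel
    have hY1n : ‖Y1‖ ≤ 15 := by
      have hYd : ‖Y - R2 * Y - Y * R2 + R2 * Y * R2‖ ≤ 7 / 2 :=
        norm_defect_le hY0 (by norm_num) (by norm_num)
      have hYM : ‖Y‖ ≤ M := by rw [hM]; linarith only [norm_nonneg t, norm_nonneg k, norm_nonneg y, hsv]
      rw [hY1']
      have := norm_unit_cut_le hr1 hR2n hYM hξ0.le hYd (hrZ R2 (by simp)).1.le (hrZ R2 (by simp)).2.le
      linarith only [this, hMξ1]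
    have hterm : ∀ i, ‖star (v i) * (t' * star t') * v i -
        (star (v i) - r * star (v i)) * (t * star t) * (v i - v i * r)‖ ≤ 20 * (M ^ 4 * ξ) :=
      fun i => weight_sub_norm_le hr1 hrs hM1 hξ0.le
        (by rw [hM]; linarith only [hvi i, norm_nonneg t, norm_nonneg k, norm_nonneg y, norm_nonneg Y])
        (by rw [hM]; linarith only [norm_nonneg k, norm_nonneg y, norm_nonneg Y, hsv]) ht'n hdiff
        (hrv i)
    have hN20 : (N : ℝ) * (20 * (M ^ 4 * ξ)) ≤ 1 := by
      have h0 : 0 ≤ M ^ 4 * ξ := mul_nonneg (pow_nonneg (le_trans zero_le_two hM1) 4) hξ0.le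
      linarith only [h0, hMξ]
    change ‖∑ i, star (v i) * (t' * star t') * v i‖ ≤ 16
    refine (norm_le_norm_add_norm_sub' _ Y1).trans ?_
    have : ‖∑ i, star (v i) * (t' * star t') * v i - Y1‖ ≤ N * (20 * (M ^ 4 * ξ)) := by
      rw [hY1, ← Finset.sum_sub_distrib]
      exact (norm_sum_le _ _).trans ((Finset.sum_le_sum fun i _ => hterm i).trans (by simp))
    linarith only [this, hY1n, hN20]
  · -- the piece survives modulo the ideal
    have hmem : t' - t ∈ J := by
      have e : t' - t = -(y * (r * k)) := by simp only [ht', ht, mul_sub]; abel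
      rw [e]; exact neg_mem (hJ.mul_left _ _ (hJ.mul_right k r hrJ))
    have h1 : qn J (t' * star t') = 1 := by
      rw [qn_mul_star_self hJ, qn_eq_of_sub_mem hJ hmem, hq1, one_pow]
    have h2 := (qn_le_norm_sub hcut).trans
      (norm_sub_cut_le (by norm_num : (0 : ℝ) ≤ 1 / 2) (mul_star_self_nonneg t'))
    linarith

end Vale.Agent.P133
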