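import Vale.Agent.P133.Dim.Defs

/-!
P133: almost orthogonal copies of the top of `x²` inside `x C`.
-/

namespace Vale.Agent.P133

open scoped ComplexOrder

variable {C : Type*} [NonUnitalCStarAlgebra C] [PartialOrder C] [StarOrderedRing C]

/-- `N` almost orthogonal copies of the top of `x²`. -/
theorem exists_slots (hC : PurelyInfinite C) {x : C} (hx : 0 ≤ x) {ε : ℝ} (hε : 0 < ε) (N : ℕ)
    {μ : ℝ} (hμ : 0 < μ) : ∃ (F : C) (r : Fin N → C), 0 ≤ F ∧ ‖F‖ ≤ 1 ∧
      (∀ i, ‖x * r i‖ ≤ 2) ∧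
      (∀ i j, ‖star (x * r i) * (x * r j) - if i = j then F else 0‖ < μ) ∧
      ‖∑ i, (x * r i) * star (x * r i)‖ ≤ 2 ∧
      ∀ J : Submodule ℂ C, IsStarIdeal J → qn J F < 3 / 4 → cut ε (x * x) ∈ J := by
  set h := x * x with hh
  have hh0 : 0 ≤ h := (IsSelfAdjoint.of_nonneg hx).mul_self_nonneg
  set φ : ℝ → ℝ := ramp (ε / 2) ε with hφ
  have hab : ε / 2 < ε := by linarith
  have hφc : Continuous φ := continuous_ramp _ _
  have hφ0 : φ 0 = 0 := ramp_zero hab (by linarith)
  set ψ : ℝ → ℝ := fun t => √(φ t) with hψ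
  have hψc : Continuous ψ := hφc.sqrt
  have hψ0 : ψ 0 = 0 := by simp [hψ, hφ0]
  set F := cfcₙ φ h with hF
  have hF0 : 0 ≤ F := cfcₙ_nonneg fun t _ => (ramp_mem _ _ t).1
  have hF1 : ‖F‖ ≤ 1 := norm_cfcₙ_le fun t _ => by
    obtain ⟨h0, h1⟩ := ramp_mem (ε / 2) ε t
    rw [Real.norm_of_nonneg h0]; exact h1
  set H := cfcₙ ψ h with hH
  have hHs : star H = H := (cfcₙ_predicate ψ h : IsSelfAdjoint H).star_eq
  have hHH : H * H = F := by
    rw [hH, hF, ← cfcₙ_mul ψ ψ h hψc.continuousOn hψ0 hψc.continuousOn hψ0]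
    exact cfcₙ_congr fun t _ => Real.mul_self_sqrt (ramp_mem _ _ t).1
  set gf : ℝ → ℝ := fun t => ψ t / max t (ε / 2) with hgf
  have hmx : ∀ t : ℝ, max t (ε / 2) ≠ 0 := fun t => (lt_max_of_lt_right (by linarith)).ne'
  have hgc : Continuous gf := hψc.div (by fun_prop) hmx
  have hg0 : gf 0 = 0 := by simp [hgf, hψ0]
  have hxgH : x * (x * cfcₙ gf h) = H := by
    rw [← mul_assoc, ← hh, hH]
    have e := cfcₙ_mul (fun t : ℝ => t) gf h continuous_id.continuousOn rfl hgc.continuousOn hg0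
    rw [cfcₙ_id' ℝ h] at e
    rw [← e]
    refine cfcₙ_congr fun t _ => ?_
    rcases le_total t (ε / 2) with h1 | h1
    · simp [hgf, hψ, hφ, ramp_of_le hab h1]
    · have : t ≠ 0 := (lt_of_lt_of_le (by linarith : (0 : ℝ) < ε / 2) h1).ne'
      simp only [hgf, max_eq_left h1]
      field_simp
  set μ' := min μ (1 / (4 * ((N : ℝ) ^ 2 + 1))) with hμ'
  have hμ'0 : 0 < μ' := lt_min hμ (by positivity)
  have hμ'1 : μ' ≤ 1 := (min_le_right _ _).trans (by
    rw [div_le_one (by positivity)]; nlinarith [sq_nonneg (N : ℝ)])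
  obtain ⟨a, ha⟩ := hC.copies hF0 N hμ'0
  refine ⟨F, fun i => x * cfcₙ gf h * a i, hF0, hF1, ?_⟩
  have hw : ∀ i, x * (x * cfcₙ gf h * a i) = H * a i := fun i => by
    rw [← hxgH]; simp only [mul_assoc]
  simp only [hw]
  have hww : ∀ i j, star (H * a i) * (H * a j) = star (a i) * F * a j := fun i j => by
    rw [star_mul, hHs, ← hHH]; simp only [mul_assoc]
  have hn : ∀ i, ‖H * a i‖ ≤ 2 := fun i => by
    have h1 := ha i i
    rw [if_pos rfl, ← hww] at h1
    have h2 := norm_sub_norm_le (star (H * a i) * (H * a i)) F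
    rw [CStarRing.norm_star_mul_self] at h2
    nlinarith [norm_nonneg (H * a i)]
  refine ⟨hn, fun i j => by rw [hww]; exact (ha i j).trans_le (min_le_left _ _), ?_,
    fun J hJ hq => cfc_mem_of_qn_lt hJ (IsSelfAdjoint.of_nonneg hh0) hφc hφ0 (by norm_num) hq
      (by fun_prop) (max_eq_right (by linarith)) fun s _ hs => by
        rw [hφ, ramp_of_ge hab (le_of_not_ge fun h1 => hs (max_eq_right (sub_nonpos.2 h1)))]
        norm_num⟩
  set w : Fin N → C := fun i => H * a i with hwdef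
  set X := ∑ i, w i * star (w i) with hX
  have hX0 : 0 ≤ X := Finset.sum_nonneg fun i _ => mul_star_self_nonneg _
  set D := ∑ i, w i * F * star (w i) with hD
  have hDX : D ≤ X := Finset.sum_le_sum fun i _ => by
    have h1 := CStarAlgebra.star_left_conjugate_le_norm_smul (a := star (w i)) (b := F)
      (IsSelfAdjoint.of_nonneg hF0)
    rw [star_star] at h1
    exact h1.trans (smul_le_of_le_one_left (mul_star_self_nonneg _) hF1)
  have hD0 : 0 ≤ D := Finset.sum_nonneg fun i _ => star_right_conjugate_nonneg hF0 _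
  have hXX : X * X - D =
      ∑ i, ∑ j, w i * (star (w i) * w j - if i = j then F else 0) * star (w j) := by
    rw [hX, hD, Finset.sum_mul_sum, ← Finset.sum_sub_distrib]
    refine Finset.sum_congr rfl fun i _ => ?_
    simp only [mul_sub, sub_mul, Finset.sum_sub_distrib, mul_ite, mul_zero, ite_mul, zero_mul,
      Finset.sum_ite_eq, Finset.mem_univ, if_true]
    congr 1
    exact Finset.sum_congr rfl fun j _ => by simp only [mul_assoc]
  have hE : ‖X * X - D‖ ≤ 1 := by
    rw [hXX]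
    refine (norm_sum_le _ _).trans ?_
    refine (Finset.sum_le_sum (g := fun _ => (N : ℝ) * (4 * μ')) fun i _ =>
      (norm_sum_le _ _).trans ((Finset.sum_le_sum (g := fun _ => 4 * μ') fun j _ => ?_).trans
        (by simp))).trans ?_
    · refine norm_mul₃_le.trans ?_
      rw [norm_star, hwdef]
      calc ‖H * a i‖ * ‖star (H * a i) * (H * a j) - if i = j then F else 0‖ * ‖H * a j‖
          ≤ 2 * μ' * 2 := mul_le_mul (mul_le_mul (hn i) (by rw [hww]; exact (ha i j).le)
            (norm_nonneg _) zero_le_two) (hn j) (norm_nonneg _) (by positivity)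
        _ = 4 * μ' := by ring
    · simp only [Finset.sum_const, Finset.card_univ, Fintype.card_fin, nsmul_eq_mul]
      have h1 : μ' * (4 * ((N : ℝ) ^ 2 + 1)) ≤ 1 := by
        rw [← le_div_iff₀ (by positivity)]; exact min_le_right _ _
      nlinarith
  have hsq : ‖X‖ * ‖X‖ = ‖X * X‖ := by
    have := CStarRing.norm_star_mul_self (x := X)
    rw [(IsSelfAdjoint.of_nonneg hX0).star_eq] at this
    exact this.symm
  have h3 := norm_sub_norm_le (X * X) D
  have h4 := CStarAlgebra.norm_le_norm_of_nonneg_of_le hD0 hDX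
  nlinarith [norm_nonneg X]

end Vale.Agent.P133
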