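import Vale.Agent.P133.Dim.Glue
import Vale.Agent.P133.Dim.Slots

/-!
P133: purely infinite and finite covering dimension imply strongly purely infinite.
-/

namespace Vale.Agent.P133

open scoped ComplexOrder

set_option linter.unusedSectionVars false

variable {C : Type*} [NonUnitalCStarAlgebra C] [PartialOrder C] [StarOrderedRing C]

theorem conj_le_conj {a b : C} (v : C) (h : a ≤ b) : star v * a * v ≤ star v * b * v := by
  rw [← sub_nonneg]
  have e : star v * b * v - star v * a * v = star v * (b - a) * v := by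
    simp only [mul_sub, sub_mul]
  rw [e]
  exact star_left_conjugate_nonneg (sub_nonneg.2 h) v

theorem conj_le_conj' {a b : C} (v : C) (h : a ≤ b) : v * a * star v ≤ v * b * star v := by
  have := conj_le_conj (star v) h
  rwa [star_star] at this

theorem qn_sum_le {J : Submodule ℂ C} {ι : Type*} (s : Finset ι) (f : ι → C) :
    qn J (∑ i ∈ s, f i) ≤ ∑ i ∈ s, qn J (f i) := by
  classical
  induction s using Finset.induction_on with
  | empty => simpa using (qn_le_norm (J := J) (0 : C))
  | insert a s ha ih =>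
    rw [Finset.sum_insert ha, Finset.sum_insert ha]
    exact (qn_add_le _ _).trans (add_le_add le_rfl ih)

/-- A positive element below `X` which is small against `c` and keeps the part of `X` that `c`
does not see. -/
theorem exists_compl {X c : C} (hX : 0 ≤ X) (hX2 : ‖X‖ ≤ 2) (hc : 0 ≤ c) {K e : ℝ}
    (hcK : ‖c‖ ≤ K) (he : 0 < e) :
    ∃ a, 0 ≤ a ∧ ‖a‖ ≤ 4 ∧ (∀ δ : ℝ, 0 < δ → ∃ g, ‖a - (X + X * g * X)‖ < δ) ∧ X - (2 / e) • (X * c * X) ≤ a ∧
      ‖a * c‖ ≤ 2 * √(2 * e * K) := by
  set s := CFC.sqrt X with hs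
  have hs0 : 0 ≤ s := CFC.sqrt_nonneg X
  have hss : star s = s := (IsSelfAdjoint.of_nonneg hs0).star_eq
  have hsq : s * s = X := CFC.sqrt_mul_sqrt_self X hX
  have hsn : ‖s‖ ≤ 2 := by
    have h := CStarRing.norm_star_mul_self (x := s)
    rw [hss, hsq] at h
    nlinarith [norm_nonneg s]
  set W := s * c * s with hW
  have hW0 : 0 ≤ W := by
    have := star_left_conjugate_nonneg hc s
    rwa [hss] at this
  have hab : e < 2 * e := by linarith
  set f := ramp e (2 * e) with hf
  have hfc : Continuous f := continuous_ramp _ _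
  have hf0 : f 0 = 0 := ramp_zero hab he.le
  set R := cfcₙ f W with hR
  have hR0 : 0 ≤ R := cfcₙ_nonneg fun t _ => (ramp_mem _ _ t).1
  have hRs : star R = R := (IsSelfAdjoint.of_nonneg hR0).star_eq
  have hR1 : ‖R‖ ≤ 1 := norm_cfcₙ_le fun t _ => by
    obtain ⟨h0, h1⟩ := ramp_mem e (2 * e) t
    rw [Real.norm_of_nonneg h0]; exact h1
  have hRW : R ≤ (1 / e) • W := by
    calc R ≤ cfcₙ (fun t : ℝ => (1 / e) • t) W := by
          refine cfcₙ_mono (fun t ht => ?_) hfc.continuousOn
            (continuous_id.const_smul (1 / e)).continuousOn hf0 (by simp)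
          have ht0 := quasispectrum_nonneg_of_nonneg W hW0 t ht
          rw [smul_eq_mul]
          rcases le_total t e with h | h
          · rw [hf, ramp_of_le hab h]; positivity
          · refine (ramp_mem e (2 * e) t).2.trans ?_
            rw [one_div_mul_eq_div, le_div_iff₀ he]; linarith
      _ = (1 / e) • W := by rw [cfcₙ_smul (1 / e) (fun t : ℝ => t) W, cfcₙ_id' ℝ W]
  set Z := s - s * R with hZ
  have hZn : ‖Z‖ ≤ 2 := by
    rw [hZ, ← norm_star, star_sub, star_mul, hRs, hss]
    exact (norm_sub_pos_mul_le hR0 hR1 s).trans hsn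
  have hZs : star Z = s - R * s := by rw [hZ, star_sub, star_mul, hRs, hss]
  refine ⟨Z * star Z, mul_star_self_nonneg _, ?_, ?_, ?_, ?_⟩
  · refine (norm_mul_le _ _).trans ?_
    rw [norm_star]
    nlinarith [norm_nonneg Z]
  · intro δ hδ
    obtain ⟨g, hg⟩ := sqrt_mul_mul_sqrt_inHer hX (-R - R + R * R) δ hδ
    refine ⟨g, ?_⟩
    have e1 : Z * star Z - (X + X * g * X) = s * (-R - R + R * R) * s - X * g * X := by
      rw [hZs, hZ, ← hsq]
      simp only [sub_mul, mul_sub, mul_add, add_mul, mul_neg, neg_mul, mul_assoc]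
      abel
    rw [e1]
    exact hg
  · have h1 : s * R * s ≤ (1 / e) • (X * c * X) := by
      have h := conj_le_conj s hRW
      rw [hss, mul_smul_comm, smul_mul_assoc] at h
      refine h.trans_eq ?_
      rw [hW, ← hsq]
      simp only [mul_assoc]
    have h2 : X - (2 : ℝ) • (s * R * s) ≤ Z * star Z := by
      rw [← sub_nonneg]
      have e1 : Z * star Z - (X - (2 : ℝ) • (s * R * s)) = (s * R) * star (s * R) := by
        rw [two_smul, hZs, hZ, star_mul, hRs, hss, ← hsq]
        simp only [sub_mul, mul_sub, mul_assoc]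
        abel
      rw [e1]; exact mul_star_self_nonneg _
    refine le_trans ?_ h2
    rw [show (2 : ℝ) / e = 2 * (1 / e) by ring, mul_smul]
    exact sub_le_sub_left (smul_le_smul_of_nonneg_left h1 zero_le_two) _
  · have hK0 : 0 ≤ K := (norm_nonneg c).trans hcK
    set q := CFC.sqrt c with hq
    have hqs : star q = q := (IsSelfAdjoint.of_nonneg (CFC.sqrt_nonneg c)).star_eq
    have hqq : q * q = c := CFC.sqrt_mul_sqrt_self c hc
    have hdef : ‖star Z * c * Z‖ ≤ 2 * e := by
      have e1 : star Z * c * Z = W - R * W - W * R + R * W * R := by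
        rw [hZs, hZ, hW]
        simp only [sub_mul, mul_sub, mul_assoc]
        abel
      rw [e1]; exact norm_defect_le hW0 hab he.le
    have h1 : ‖star Z * q‖ ^ 2 ≤ 2 * e := by
      rw [sq, ← CStarRing.norm_self_mul_star]
      refine le_of_eq_of_le ?_ hdef
      rw [star_mul, star_star, hqs, ← hqq]; simp only [mul_assoc]
    have h2 : ‖q‖ ^ 2 ≤ K := by
      have h := CStarRing.norm_star_mul_self (x := q)
      rw [hqs, hqq] at h
      rw [sq, ← h]; exact hcK
    have h3 : ‖star Z * q‖ * ‖q‖ ≤ √(2 * e * K) := by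
      refine Real.le_sqrt_of_sq_le ?_
      rw [mul_pow]
      exact mul_le_mul h1 h2 (sq_nonneg _) (by linarith)
    have e1 : Z * star Z * c = Z * (star Z * q * q) := by rw [← hqq]; simp only [mul_assoc]
    rw [e1]
    exact (norm_mul_le _ _).trans (mul_le_mul hZn ((norm_mul_le _ _).trans h3) (norm_nonneg _)
      zero_le_two)

/-- Almost orthogonal copies of `F` whose sum `X` is cut to `a` force `F` into the ideal of `a`. -/
theorem qn_copies_le {N : ℕ} (hN : 0 < N) {F c a X : C} (v : Fin N → C) (hF : 0 ≤ F)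
    (hF1 : ‖F‖ ≤ 1) (hc : 0 ≤ c) {K μ : ℝ} (hK : 1 ≤ K) (hcK : ‖c‖ ≤ K)
    (hΦ : ‖∑ i, star (v i) * c * v i‖ ≤ K) (hv : ∀ i, ‖v i‖ ≤ 2)
    (hvv : ∀ i j, ‖star (v i) * v j - if i = j then F else 0‖ ≤ μ)
    (hμ : 1000 * ((N : ℝ) + 1) ^ 3 * μ ≤ 1) (hX : X = ∑ j, v j * star (v j)) (ha : 0 ≤ a)
    (hle : X - ((N : ℝ) / (2 * K)) • (X * c * X) ≤ a)
    {J : Submodule ℂ C} (hJ : IsStarIdeal J) (hq : qn J a ≤ 1 / 32) : qn J F < 3 / 4 := by
  classical
  have hN1 : (1 : ℝ) ≤ N := by exact_mod_cast hN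
  have hμ0 : 0 ≤ μ := (norm_nonneg _).trans (hvv ⟨0, hN⟩ ⟨0, hN⟩)
  have hFs : star F = F := (IsSelfAdjoint.of_nonneg hF).star_eq
  set r := (N : ℝ) / (2 * K) with hr
  have hr0 : 0 ≤ r := by positivity
  set Φ := ∑ i, star (v i) * c * v i with hΦdef
  have hΦ0 : 0 ≤ Φ := Finset.sum_nonneg fun i _ => star_left_conjugate_nonneg hc _
  set E : Fin N → C := fun i => X * v i - v i * F with hE
  have hEn : ∀ i, ‖E i‖ ≤ N * (2 * μ) := fun i => by
    have e1 : E i = ∑ j, v j * (star (v j) * v i - if j = i then F else 0) := by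
      simp only [hE, mul_sub, Finset.sum_sub_distrib, mul_ite, mul_zero, Finset.sum_ite_eq',
        Finset.mem_univ, if_true, hX, Finset.sum_mul, mul_assoc]
    rw [e1]
    refine (norm_sum_le _ _).trans ((Finset.sum_le_sum (g := fun _ => 2 * μ) fun j _ => ?_).trans
      (by simp))
    exact (norm_mul_le _ _).trans (mul_le_mul (hv j) (hvv j i) (norm_nonneg _) zero_le_two)
  have hvF : ∀ i, ‖v i * F‖ ≤ 2 := fun i =>
    (norm_mul_le _ _).trans ((mul_le_of_le_one_right (norm_nonneg _) hF1).trans (hv i))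
  set T : Fin N → C := fun i => star (v i) * (X - r • (X * c * X)) * v i with hT
  have hXs : star X = X := by
    rw [hX, star_sum]; simp only [star_mul, star_star]
  have hTn : ∀ i, ‖T i - (F * F - r • (F * (star (v i) * c * v i) * F))‖ ≤
      μ + 4 * N * μ + r * (K * (9 * (N * (2 * μ)))) := fun i => by
    have e1 : T i - (F * F - r • (F * (star (v i) * c * v i) * F)) =
        ((star (v i) * v i - F) * F + star (v i) * E i) -
          r • (star (E i) * c * (X * v i) + star (v i * F) * c * E i) := by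
      have : star (v i) * (X * c * X) * v i = star (X * v i) * c * (X * v i) := by
        rw [star_mul, hXs]; simp only [mul_assoc]
      simp only [hT, mul_sub, sub_mul, mul_smul_comm, smul_mul_assoc, hE, star_sub,
        star_mul, hFs, hXs, smul_add, smul_sub, mul_assoc]
      abel
    rw [e1]
    refine (norm_sub_le _ _).trans (add_le_add ((norm_add_le _ _).trans (add_le_add ?_ ?_)) ?_)
    · have := hvv i i
      rw [if_pos rfl] at this
      exact (norm_mul_le _ _).trans ((mul_le_of_le_one_right (norm_nonneg _) hF1).trans this)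
    · refine (norm_mul_le _ _).trans ?_
      rw [norm_star]
      exact (mul_le_mul (hv i) (hEn i) (norm_nonneg _) zero_le_two).trans (le_of_eq (by ring))
    · rw [norm_smul, Real.norm_of_nonneg hr0]
      refine mul_le_mul_of_nonneg_left ((norm_add_le _ _).trans ?_) hr0
      have hXv : ‖X * v i‖ ≤ 3 := by
        have h1 : X * v i = v i * F + E i := by simp only [hE]; abel
        rw [h1]
        refine (norm_add_le _ _).trans ?_
        have h2 : (N : ℝ) * (2 * μ) ≤ 1 := by
          refine le_trans ?_ hμ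
          have : (N : ℝ) * 2 ≤ 1000 * ((N : ℝ) + 1) ^ 3 := by
            nlinarith [le_self_pow₀ (by linarith : (1 : ℝ) ≤ (N : ℝ) + 1) (by norm_num : 3 ≠ 0)]
          linarith [mul_le_mul_of_nonneg_right this hμ0]
        linarith [hvF i, hEn i]
      have h1 : ‖star (E i) * c * (X * v i)‖ ≤ N * (2 * μ) * K * 3 := by
        refine norm_mul₃_le.trans ?_
        rw [norm_star]
        gcongr
        exact hEn i
      have h2 : ‖star (v i * F) * c * E i‖ ≤ 2 * K * (N * (2 * μ)) := by
        refine norm_mul₃_le.trans ?_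
        rw [norm_star]
        gcongr
        · exact hvF i
        · exact hEn i
      nlinarith [show (0 : ℝ) ≤ K * (N * (2 * μ)) by positivity]
  set S := ∑ i, star (v i) * a * v i with hS
  have hqS : qn J S ≤ N * (1 / 8) := by
    refine (qn_sum_le _ _).trans ((Finset.sum_le_sum (g := fun _ => 1 / 8) fun i _ => ?_).trans
      (le_of_eq (by simp)))
    refine (qn_conj_le hJ a (v i)).trans ?_
    have h1 := (qn_le_norm (J := J) (v i)).trans (hv i)
    nlinarith [mul_le_mul hq (pow_le_pow_left₀ (qn_nonneg (J := J) (v i)) h1 2) (sq_nonneg _)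
      (by norm_num : (0 : ℝ) ≤ 1 / 32)]
  have hTS : ∑ i, T i ≤ S := Finset.sum_le_sum fun i _ => conj_le_conj (v i) hle
  set E' := ∑ i, T i - ((N : ℝ) • (F * F) - r • (F * Φ * F)) with hE'
  have hE'n : ‖E'‖ ≤ N * (μ + 4 * N * μ + r * (K * (9 * (N * (2 * μ))))) := by
    have e1 : E' = ∑ i, (T i - (F * F - r • (F * (star (v i) * c * v i) * F))) := by
      simp only [hE', Finset.sum_sub_distrib, Finset.sum_const, Finset.card_univ,
        Fintype.card_fin, hΦdef, Finset.mul_sum, Finset.sum_mul, Finset.smul_sum,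
        Nat.cast_smul_eq_nsmul]
    rw [e1]
    refine (norm_sum_le _ _).trans ((Finset.sum_le_sum fun i _ => hTn i).trans
      (le_of_eq (by rw [Finset.sum_const, Finset.card_univ, Fintype.card_fin, nsmul_eq_mul])))
  have hhalf : (0 : C) ≤ ((N : ℝ) / 2) • (F * F) :=
    smul_nonneg (by positivity) (IsSelfAdjoint.of_nonneg hF).mul_self_nonneg
  have hkey : ((N : ℝ) / 2) • (F * F) ≤ S - E' := by
    have h1 : F * Φ * F ≤ K • (F * F) := by
      have h := CStarAlgebra.star_left_conjugate_le_norm_smul (a := F) (b := Φ)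
        (IsSelfAdjoint.of_nonneg hΦ0)
      rw [hFs] at h
      exact h.trans (smul_le_smul_of_nonneg_right hΦ (IsSelfAdjoint.of_nonneg hF).mul_self_nonneg)
    have h2 : r • (F * Φ * F) ≤ ((N : ℝ) / 2) • (F * F) := by
      refine (smul_le_smul_of_nonneg_left h1 hr0).trans_eq ?_
      rw [smul_smul, hr]; congr 1; field_simp
    calc ((N : ℝ) / 2) • (F * F) = (N : ℝ) • (F * F) - ((N : ℝ) / 2) • (F * F) := by
          rw [← sub_smul]; congr 1; ring
      _ ≤ (N : ℝ) • (F * F) - r • (F * Φ * F) := sub_le_sub_left h2 _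
      _ = ∑ i, T i - E' := by rw [hE']; abel
      _ ≤ S - E' := sub_le_sub_right hTS _
  have hq2 : qn J (S - E') ≤ N * (1 / 8) + ‖E'‖ := by
    have h := qn_le_add_norm (J := J) (S - E') S
    rw [sub_sub_cancel_left, norm_neg] at h
    linarith
  have hqF : qn J (F * F) ≤ 2 / N * (N * (1 / 8) + ‖E'‖) := by
    have h1 : F * F = (2 / (N : ℝ)) • (((N : ℝ) / 2) • (F * F)) := by
      rw [smul_smul, div_mul_div_cancel₀ (by positivity), div_self two_ne_zero, one_smul]
    rw [h1]
    refine (qn_smul_le _).trans ?_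
    rw [abs_of_nonneg (by positivity)]
    exact mul_le_mul_of_nonneg_left ((qn_le_of_le hJ hhalf hkey).trans hq2) (by positivity)
  have hsqF : qn J (F * F) = qn J F ^ 2 := by
    have := qn_star_mul_self hJ F
    rwa [hFs] at this
  have hE'1 : ‖E'‖ ≤ 1 / 50 := by
    refine hE'n.trans ?_
    have e1 : r * (K * (9 * (N * (2 * μ)))) = 9 * (N : ℝ) ^ 2 * μ := by
      rw [hr]; field_simp
    rw [e1]
    have h1 : (N : ℝ) * (1 + 4 * N + 9 * N ^ 2) ≤ 20 * ((N : ℝ) + 1) ^ 3 := by nlinarith
    linarith [mul_le_mul_of_nonneg_right h1 hμ0]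
  have h2 : 2 / (N : ℝ) * (N * (1 / 8) + ‖E'‖) ≤ 1 / 4 + 1 / 25 := by
    rw [div_mul_eq_mul_div, div_le_iff₀ (by positivity)]
    nlinarith [norm_nonneg E']
  nlinarith [qn_nonneg (J := J) F]

/-- Pure infiniteness and finite covering dimension give strong pure infiniteness. -/
theorem stronglyPurelyInfinite_of_coverDim (hC : PurelyInfinite C) {m : ℕ} (hD : CoverDim C m) :
    StronglyPurelyInfinite C := by
  refine stronglyPurelyInfinite_of_full hC fun x y hx hy ε hε => ?_
  set K := gB m with hK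
  have hK1 : 1 ≤ K := by
    rw [hK, gB]
    linarith [show (0 : ℝ) ≤ (m : ℝ) by positivity]
  refine ⟨min (1 / 128) (1 / (32 * K)), lt_min (by norm_num) (by positivity), fun η hη => ?_⟩
  set γ := min (1 / 128) (1 / (32 * K)) with hγ
  obtain ⟨N, hN⟩ := exists_nat_gt (32 * K ^ 2 / η ^ 2)
  have hN0' : (0 : ℝ) < N := lt_of_le_of_lt (by positivity) hN
  have hN0 : 0 < N := by exact_mod_cast hN0'
  set μ := 1 / (1000 * ((N : ℝ) + 1) ^ 3) with hμdef
  obtain ⟨F, r, hF0, hF1, hr2, hrr, hsum, hfull⟩ :=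
    exists_slots hC hx hε N (show 0 < μ by positivity)
  obtain ⟨d, hc0, hcK, hΦ, hyJ⟩ := exists_glue hC hD hy hε (fun i => x * r i) hsum
  set X := ∑ i, (x * r i) * star (x * r i) with hX
  have hX0 : 0 ≤ X := Finset.sum_nonneg fun i _ => mul_star_self_nonneg _
  have he : (0 : ℝ) < 4 * K / N := by positivity
  obtain ⟨a, ha0, ha4, haX, hale, hac⟩ := exists_compl hX0 hsum hc0 hcK he
  have hXx : X = x * (∑ i, r i * star (r i)) * x := by
    rw [hX, Finset.mul_sum, Finset.sum_mul]
    exact Finset.sum_congr rfl fun i _ => by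
      rw [star_mul, (IsSelfAdjoint.of_nonneg hx).star_eq]; simp only [mul_assoc]
  have hax : InHer x a := fun δ hδ => by
    obtain ⟨g, hg⟩ := haX δ hδ
    set k := ∑ i, r i * star (r i)
    refine ⟨k + k * x * g * x * k, ?_⟩
    rw [hXx] at hg
    simpa only [mul_add, add_mul, mul_assoc] using hg
  refine ⟨(1 / 4 : ℝ) • a, (1 / K) • (y * d * y), smul_nonneg (by norm_num) ha0,
    smul_nonneg (by positivity) hc0, ?_, ?_, ?_, ?_, ?_, ?_, ?_⟩
  · rw [norm_smul, Real.norm_of_nonneg (by norm_num)]; linarith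
  · rw [norm_smul, Real.norm_of_nonneg (by positivity), one_div_mul_eq_div,
      div_le_one (by positivity)]
    exact hcK
  · intro δ hδ
    obtain ⟨g, hg⟩ := hax δ hδ
    refine ⟨(1 / 4 : ℝ) • g, lt_of_le_of_lt ?_ hg⟩
    rw [mul_smul_comm, smul_mul_assoc, ← smul_sub, norm_smul,
      Real.norm_of_nonneg (by norm_num)]
    linarith [norm_nonneg (a - x * g * x)]
  · exact fun δ hδ => ⟨(1 / K) • d, by
      rw [mul_smul_comm, smul_mul_assoc, sub_self, norm_zero]; exact hδ⟩
  · rw [smul_mul_assoc, mul_smul_comm, smul_smul, norm_smul,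
      Real.norm_of_nonneg (by positivity)]
    refine le_trans (mul_le_mul_of_nonneg_left hac (by positivity)) ?_
    have h1 : √(2 * (4 * K / N) * K) ≤ η := by
      refine Real.sqrt_le_iff.2 ⟨hη.le, ?_⟩
      rw [div_lt_iff₀ (by positivity)] at hN
      have e1 : 2 * (4 * K / (N : ℝ)) * K = 8 * K ^ 2 / N := by ring
      rw [e1, div_le_iff₀ hN0']
      nlinarith [sq_nonneg K]
    have h2 : 1 / 4 * (1 / K) ≤ 1 / 4 := by
      have : 1 / K ≤ 1 := by rw [div_le_one (by positivity)]; exact hK1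
      linarith
    nlinarith [mul_le_mul h2 h1 (Real.sqrt_nonneg _) (by norm_num : (0 : ℝ) ≤ 1 / 4)]
  · set J := idealGen (cut γ ((1 / 4 : ℝ) • a))
    have hJ : IsStarIdeal J :=
      isStarIdeal_idealGen (IsSelfAdjoint.of_nonneg (cut_nonneg _ _)).star_eq
    refine hfull J hJ (qn_copies_le hN0 (fun i => x * r i) hF0 hF1 hc0 hK1 hcK hΦ hr2
      (fun i j => (hrr i j).le) ?_ hX ha0 ?_ hJ ?_)
    · rw [hμdef, ← mul_div_assoc, mul_one, div_self (by positivity)]
    · have e1 : (N : ℝ) / (2 * K) = 2 / (4 * K / N) := by field_simp; ring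
      rw [e1]; exact hale
    · have h1 : qn J ((1 / 4 : ℝ) • a) ≤ γ :=
        qn_cut_self (smul_nonneg (by norm_num) ha0) (by positivity)
      have h2 := qn_smul_le (J := J) (r := 4) ((1 / 4 : ℝ) • a)
      rw [smul_smul, show (4 : ℝ) * (1 / 4) = 1 by norm_num, one_smul,
        abs_of_pos (by norm_num : (0 : ℝ) < 4)] at h2
      linarith [min_le_left (1 / 128 : ℝ) (1 / (32 * K))]
  · set J := idealGen (cut γ ((1 / K) • (y * d * y)))
    have hJ : IsStarIdeal J :=
      isStarIdeal_idealGen (IsSelfAdjoint.of_nonneg (cut_nonneg _ _)).star_eq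
    refine idealGen_le hJ (cut_mem_of_qn_lt hJ hc0 ?_) hyJ
    have h1 : qn J ((1 / K) • (y * d * y)) ≤ γ :=
      qn_cut_self (smul_nonneg (by positivity) hc0) (by positivity)
    have h2 := qn_smul_le (J := J) (r := K) ((1 / K) • (y * d * y))
    rw [smul_smul, mul_one_div, div_self (by positivity), one_smul,
      abs_of_pos (by positivity)] at h2
    have h3 : K * γ ≤ 1 / 32 := by
      have h4 : γ ≤ 1 / (32 * K) := min_le_right _ _
      rw [le_div_iff₀ (by positivity)] at h4
      linarith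
    nlinarith [mul_le_mul_of_nonneg_left h1 (show 0 ≤ K by positivity)]

end Vale.Agent.P133
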