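import Vale.Agent.P133.Dim.Units
import Vale.Agent.P133.Dim.Layer

/-!
P133: if any `m + 2` of the cut units have small product, their squares add up to at most
`2 (m + 2)`, and strength of a piece passes to the element it covers.
-/

namespace Vale.Agent.P133

open scoped ComplexOrder

set_option linter.unusedSectionVars false

variable {C : Type*} [NonUnitalCStarAlgebra C] [PartialOrder C] [StarOrderedRing C]

/-- `a l₁ (a l₂ (... g))`. -/
def ap {n : ℕ} (a : Fin n → C) : List (Fin n) → C → C
  | [], g => g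
  | l :: L, g => a l * ap a L g

/-- `w lₖ (... (w l₁ g))`. -/
def pr {n : ℕ} (w : Fin n → C) : List (Fin n) → C → C
  | [], g => g
  | l :: L, g => pr w L (w l * g)

/-- The product of the `w` along a nonempty list. -/
def xl {n : ℕ} (w : Fin n → C) : List (Fin n) → C
  | [] => 0
  | l :: L => pr w L (w l)

theorem ap_mul {n : ℕ} (a : Fin n → C) (g h : C) :
    ∀ L, ap a L (g * h) = ap a L g * h
  | [] => rfl
  | l :: L => by rw [ap, ap, ap_mul a g h L, mul_assoc]

theorem pr_mul {n : ℕ} (w : Fin n → C) : ∀ (L : List (Fin n)) (g h : C),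
    pr w L (g * h) = pr w L g * h
  | [], _, _ => rfl
  | l :: L, g, h => by rw [pr, pr, ← mul_assoc, pr_mul w L]

theorem pr_eq_xl_mul {n : ℕ} (w : Fin n → C) {L : List (Fin n)} (hL : L ≠ []) (g : C) :
    pr w L g = xl w L * g := by
  obtain ⟨l, L, rfl⟩ := List.exists_cons_of_ne_nil hL
  rw [pr, xl, pr_mul]

theorem pr_mem {n : ℕ} {w : Fin n → C} {J : Submodule ℂ C} (hJ : IsStarIdeal J) :
    ∀ (L : List (Fin n)) (g : C), (g ∈ J ∨ ∃ l ∈ L, w l ∈ J) → pr w L g ∈ J
  | [], g, h => by
      rcases h with h | ⟨l, hl, -⟩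
      · exact h
      · simp at hl
  | l :: L, g, h => by
      refine pr_mem hJ L _ ?_
      rcases h with h | ⟨k, hk, hk'⟩
      · exact Or.inl (hJ.mul_left _ _ h)
      · rcases List.mem_cons.1 hk with rfl | hk
        · exact Or.inl (hJ.mul_right _ _ hk')
        · exact Or.inr ⟨k, hk, hk'⟩

theorem xl_mem {n : ℕ} {w : Fin n → C} {J : Submodule ℂ C} (hJ : IsStarIdeal J)
    {L : List (Fin n)} {l : Fin n} (hl : l ∈ L) (h : w l ∈ J) : xl w L ∈ J := by
  cases L with
  | nil => simp at hl
  | cons k L =>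
    refine pr_mem hJ L _ ?_
    rcases List.mem_cons.1 hl with rfl | hl
    · exact Or.inl h
    · exact Or.inr ⟨l, hl, h⟩

theorem inr_prod_map {n : ℕ} (a : Fin n → C) (h : C) :
    ∀ L : List (Fin n), (L.map fun l => (a l : Unitization ℂ C)).prod * (h : Unitization ℂ C) =
      ((ap a L h : C) : Unitization ℂ C)
  | [] => by simp [ap]
  | l :: L => by
      rw [List.map_cons, List.prod_cons, mul_assoc, inr_prod_map a h L, ap, Unitization.inr_mul]

/-- The multiplicity bound for cut units. -/
theorem exists_glue_bound (n m : ℕ) : ∃ ξ : ℝ, 0 < ξ ∧ ∀ (U : ℕ → C) (w : Fin n → C),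
    (∀ i, 0 ≤ U i ∧ ‖U i‖ ≤ 1) → (∀ l, star (w l) = w l ∧ ‖w l‖ ≤ 1) →
    (∀ i < n, ∀ j < n, ‖U i * U j - U j * U i‖ ≤ ξ) →
    (∀ i < n, ∀ l, ‖w l * U i - U i * w l‖ ≤ ξ) →
    (∀ i j, ‖w i * w j - w j * w i‖ ≤ ξ) →
    (∀ (T : Finset (Fin n)) (M : Fin n), T.card = m + 1 → (∀ i ∈ T, i < M) →
      ‖xl w T.toList * gw U (w M) M‖ ≤ ξ) →
    ‖∑ l, gw U (w l) l * star (gw U (w l) l)‖ ≤ 2 * ((m : ℝ) + 2) := by
  classical
  obtain ⟨ξL, hξL, hLayer⟩ := exists_layer_bound (Unitization ℂ C) n (m + 1)
  set D : ℝ := 8 * ((m : ℝ) + 3) ^ 2 * ((n : ℝ) + 1) ^ 2 with hD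
  have hD1 : 1 ≤ D := by
    rw [hD]
    have h1 : (1 : ℝ) ≤ ((m : ℝ) + 3) ^ 2 := by nlinarith [Nat.cast_nonneg (α := ℝ) m]
    have h2 : (1 : ℝ) ≤ ((n : ℝ) + 1) ^ 2 := by nlinarith [Nat.cast_nonneg (α := ℝ) n]
    nlinarith
  refine ⟨ξL / D, by positivity, fun U w hU hw hUU hwU hww hx => ?_⟩
  set ξ := ξL / D with hξ
  have hξ0 : 0 < ξ := by positivity
  set g : Fin n → C := fun l => gw U (w l) l with hg
  set N2 : ℝ := ((n : ℝ) + 1) ^ 2 * ξ with hN2
  have hn1 : (1 : ℝ) ≤ (n : ℝ) + 1 := by linarith [Nat.cast_nonneg (α := ℝ) n]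
  have hj : ∀ l : Fin n, ((l : ℕ) : ℝ) + 1 ≤ (n : ℝ) + 1 := fun l => by
    have : ((l : ℕ) : ℝ) ≤ (n : ℝ) := by exact_mod_cast l.isLt.le
    linarith
  have hgn : ∀ l, ‖g l‖ ≤ 1 := fun l => (norm_gw_le hU _ _).trans (hw l).2
  -- commutators of the cut units
  have hwg : ∀ i l, ‖w i * g l - g l * w i‖ ≤ ((n : ℝ) + 1) * ξ := fun i l =>
    (norm_comm_gw_le hU (hw l).2 (hww i l) l fun k hk => hwU k (by omega) i).trans
      (mul_le_mul_of_nonneg_right (hj l) hξ0.le)
  have hUg : ∀ i < n, ∀ l, ‖U i * g l - g l * U i‖ ≤ ((n : ℝ) + 1) * ξ := fun i hi l =>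
    (norm_comm_gw_le hU (hw l).2 ((norm_sub_rev _ _).le.trans (hwU i hi l)) l
      fun k hk => hUU i hi k (by omega)).trans (mul_le_mul_of_nonneg_right (hj l) hξ0.le)
  have hUs : ∀ i, star (U i) = U i := fun i => (IsSelfAdjoint.of_nonneg (hU i).1).star_eq
  have hgw' : ∀ i l, ‖star (g l) * w i - w i * star (g l)‖ ≤ ((n : ℝ) + 1) * ξ := fun i l => by
    rw [norm_comm_star (hw i).1, norm_sub_rev]; exact hwg i l
  have hgg : ∀ i l, ‖g i * g l - g l * g i‖ ≤ N2 ∧
      ‖star (g i) * g l - g l * star (g i)‖ ≤ N2 := fun i l => by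
    have hle : ((l : ℕ) + 1 : ℝ) * (((n : ℝ) + 1) * ξ) ≤ N2 := by
      rw [hN2, sq, mul_assoc ((n : ℝ) + 1)]
      exact mul_le_mul_of_nonneg_right (hj l) (by positivity)
    constructor
    · exact (norm_comm_gw_le hU (hw l).2 ((norm_sub_rev _ _).le.trans (hwg l i)) l
        fun k hk => (norm_sub_rev _ _).le.trans (hUg k (by omega) i)).trans hle
    · refine (norm_comm_gw_le hU (hw l).2 (hgw' l i) l fun k hk => ?_).trans hle
      rw [norm_comm_star (hUs k), norm_sub_rev]
      exact hUg k (by omega) i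
  set a : Fin n → C := fun l => g l * star (g l) with ha
  have han : ∀ l, ‖a l‖ ≤ 1 := fun l => (norm_mul_le _ _).trans
    (mul_le_one₀ (hgn l) (norm_nonneg _) ((norm_star _).le.trans (hgn l)))
  have hwa : ∀ i l, ‖w i * a l - a l * w i‖ ≤ 2 * N2 := fun i l => by
    have h1 : ‖w i * star (g l) - star (g l) * w i‖ ≤ ((n : ℝ) + 1) * ξ :=
      (norm_sub_rev _ _).le.trans (hgw' i l)
    have h2 : ((n : ℝ) + 1) * ξ ≤ N2 := by
      rw [hN2, sq, mul_assoc ((n : ℝ) + 1)]
      exact le_mul_of_one_le_left (by positivity) hn1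
    refine (norm_comm_mul (w i) (g l) (star (g l))).trans ?_
    have h3 := mul_le_of_le_one_right (norm_nonneg (w i * g l - g l * w i))
      ((norm_star _).le.trans (hgn l))
    have h4 := mul_le_of_le_one_left (norm_nonneg (w i * star (g l) - star (g l) * w i)) (hgn l)
    linarith [hwg i l]
  have hapn : ∀ (L : List (Fin n)) (h : C), ‖h‖ ≤ 1 → ‖ap a L h‖ ≤ 1 := by
    intro L
    induction L with
    | nil => exact fun h hh => hh
    | cons l L ih =>
      exact fun h hh => (norm_mul_le _ _).trans
        (mul_le_one₀ (han l) (norm_nonneg _) (ih h hh))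
  have hwap : ∀ (L : List (Fin n)) (i : Fin n) (h : C), ‖h‖ ≤ 1 →
      ‖w i * ap a L h - ap a L (w i * h)‖ ≤ L.length * (2 * N2) := by
    intro L
    induction L with
    | nil => intro i h _; simp [ap]
    | cons l L ih =>
      intro i h hh
      have e : w i * ap a (l :: L) h - ap a (l :: L) (w i * h) =
          (w i * a l - a l * w i) * ap a L h + a l * (w i * ap a L h - ap a L (w i * h)) := by
        simp only [ap, sub_mul, mul_sub, mul_assoc]; abel
      rw [e]
      refine (norm_add_le _ _).trans ?_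
      have h1 := (norm_mul_le (w i * a l - a l * w i) (ap a L h)).trans
        (mul_le_of_le_one_right (norm_nonneg _) (hapn L h hh))
      have h2 := (norm_mul_le (a l) (w i * ap a L h - ap a L (w i * h))).trans
        (mul_le_of_le_one_left (norm_nonneg _) (han l))
      simp only [List.length_cons]
      push_cast
      linarith [hwa i l, ih i h hh]
  have hkey : ∀ (L : List (Fin n)) (h : C), L.length ≤ m + 1 → ‖h‖ ≤ 1 →
      ‖ap a L h‖ ≤ ‖pr w L h‖ + L.length * ((2 * (m : ℝ) + 5) * N2) := by
    intro L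
    induction L with
    | nil => intro h _ _; simp [ap, pr]
    | cons l L ih =>
      intro h hL hh
      simp only [List.length_cons] at hL
      set A := ap a L h with hA
      have e : a l * A = star (g l) * (g l * A) + (g l * star (g l) - star (g l) * g l) * A := by
        simp only [ha, sub_mul, mul_assoc]; abel
      have h1 : ‖star (g l) * (g l * A)‖ ≤ ‖w l * A‖ := by
        refine (norm_mul_le _ _).trans ?_
        refine (mul_le_of_le_one_left (norm_nonneg _) ((norm_star _).le.trans (hgn l))).trans ?_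
        rw [hg]
        simp only [← gw_mul]
        exact norm_gw_le hU _ _
      have h2 := (norm_mul_le (g l * star (g l) - star (g l) * g l) A).trans
        (mul_le_of_le_one_right (norm_nonneg _) (hapn L h hh))
      have h3 : ‖g l * star (g l) - star (g l) * g l‖ ≤ N2 :=
        (norm_sub_rev _ _).le.trans (hgg l l).2
      have h4 := ih (w l * h) (by omega)
        ((norm_mul_le _ _).trans (mul_le_one₀ (hw l).2 (norm_nonneg _) hh))
      have h5 := norm_le_norm_add_norm_sub' (w l * A) (ap a L (w l * h))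
      have h6 := hwap L l h hh
      have h7 : (L.length : ℝ) * (2 * N2) ≤ ((m : ℝ) + 1) * (2 * N2) := by
        refine mul_le_mul_of_nonneg_right ?_ (by positivity)
        exact_mod_cast (by omega : L.length ≤ m + 1)
      have hN20 : 0 ≤ N2 := by positivity
      show ‖a l * A‖ ≤ _
      rw [e]
      simp only [List.length_cons, pr]
      push_cast
      linarith [norm_add_le (star (g l) * (g l * A))
        ((g l * star (g l) - star (g l) * g l) * A)]
  -- the layer bound
  have hsa : ∀ l, IsSelfAdjoint ((a l : C) : Unitization ℂ C) := fun l =>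
    (IsSelfAdjoint.mul_star_self (g l)).inr ℂ
  have hbound := hLayer (fun l => ((a l : C) : Unitization ℂ C)) hsa
    (fun l => by rw [Unitization.norm_inr]; exact han l) ?_ ?_
  · have e : (∑ l, ((a l : C) : Unitization ℂ C)) = ((∑ l, a l : C) : Unitization ℂ C) :=
      (map_sum (Unitization.inrNonUnitalStarAlgHom ℂ C) a Finset.univ).symm
    rw [e, Unitization.norm_inr] at hbound
    refine hbound.trans (le_of_eq ?_)
    push_cast
    ring
  · intro i j
    rw [← Unitization.inr_mul, ← Unitization.inr_mul, ← Unitization.inr_sub ℂ,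
      Unitization.norm_inr]
    have hc : ∀ p, ‖g p * a i - a i * g p‖ ≤ 2 * N2 := fun p => by
      refine (norm_comm_mul (g p) (g i) (star (g i))).trans ?_
      have h3 := mul_le_of_le_one_right (norm_nonneg (g p * g i - g i * g p))
        ((norm_star _).le.trans (hgn i))
      have h4 := mul_le_of_le_one_left
        (norm_nonneg (g p * star (g i) - star (g i) * g p)) (hgn i)
      have h5 : ‖g p * star (g i) - star (g i) * g p‖ ≤ N2 :=
        (norm_sub_rev _ _).le.trans (hgg i p).2
      linarith [(hgg p i).1]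
    have hs : star (a i) = a i := by simp [ha]
    have hc' : ‖star (g j) * a i - a i * star (g j)‖ ≤ 2 * N2 := by
      rw [norm_comm_star hs]; exact hc j
    have h1 := norm_comm_mul (a i) (g j) (star (g j))
    rw [norm_sub_rev (a i * g j), norm_sub_rev (a i * star (g j))] at h1
    have h2 := mul_le_of_le_one_right (norm_nonneg (g j * a i - a i * g j))
      ((norm_star _).le.trans (hgn j))
    have h3 := mul_le_of_le_one_left (norm_nonneg (star (g j) * a i - a i * star (g j))) (hgn j)
    have h4 : 4 * N2 < ξL := by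
      have e : ξ * D = ξL := div_mul_cancel₀ _ (by positivity)
      rw [hN2]
      rw [hD] at e
      have : (4 : ℝ) < 8 * ((m : ℝ) + 3) ^ 2 := by nlinarith [Nat.cast_nonneg (α := ℝ) m]
      have h0 : 0 < ((n : ℝ) + 1) ^ 2 * ξ := by positivity
      nlinarith [mul_lt_mul_of_pos_right this h0]
    linarith [hc j]
  · intro S hS
    have hne : S.Nonempty := Finset.card_pos.1 (by omega)
    set M := S.max' hne with hM
    set T := S.erase M with hT
    have hMS : M ∈ S := S.max'_mem hne
    have hTc : T.card = m + 1 := by rw [hT, Finset.card_erase_of_mem hMS, hS]; omega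
    have hTlt : ∀ i ∈ T, i < M := fun i hi =>
      lt_of_le_of_ne (S.le_max' i (Finset.mem_of_mem_erase hi)) (Finset.ne_of_mem_erase hi)
    refine ⟨T.toList ++ [M], ?_, ?_, ?_⟩
    · refine List.nodup_append.2 ⟨Finset.nodup_toList T, List.nodup_singleton _, ?_⟩
      intro x hx y hy hxy
      simp only [List.mem_singleton] at hy
      rw [Finset.mem_toList] at hx
      exact Finset.ne_of_mem_erase hx (hxy.trans hy)
    · rw [List.toFinset_append, Finset.toList_toFinset]
      simp only [List.toFinset_cons, List.toFinset_nil, insert_empty_eq]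
      rw [hT, Finset.union_comm, ← Finset.insert_eq, Finset.insert_erase hMS]
    · rw [List.map_append, List.prod_append, List.map_singleton, List.prod_singleton,
        inr_prod_map, Unitization.norm_inr]
      have hne' : T.toList ≠ [] := fun h => by
        have := Finset.length_toList T
        rw [h, hTc] at this
        simp at this
      have h1 : ‖ap a T.toList (a M)‖ ≤ ‖ap a T.toList (g M)‖ := by
        rw [show a M = g M * star (g M) from rfl, ap_mul]
        exact (norm_mul_le _ _).trans
          (mul_le_of_le_one_right (norm_nonneg _) ((norm_star _).le.trans (hgn M)))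
      have h2 := hkey T.toList (g M) (by rw [Finset.length_toList, hTc]) (hgn M)
      rw [Finset.length_toList, hTc, pr_eq_xl_mul w hne'] at h2
      have h3 : ‖xl w T.toList * g M‖ ≤ ξ := hx T M hTc hTlt
      have h4 : ξ + ((m + 1 : ℕ) : ℝ) * ((2 * (m : ℝ) + 5) * N2) < ξL := by
        have e : ξ * D = ξL := div_mul_cancel₀ _ (by positivity)
        rw [hD] at e
        push_cast
        rw [hN2]
        set q := ((n : ℝ) + 1) ^ 2 with hq
        have hq1 : 1 ≤ q := by nlinarith [Nat.cast_nonneg (α := ℝ) n]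
        have hm0 := Nat.cast_nonneg (α := ℝ) m
        have h5 : ((m : ℝ) + 1) * (2 * (m : ℝ) + 5) + 1 < 8 * ((m : ℝ) + 3) ^ 2 := by nlinarith
        have h6 : ξ ≤ q * ξ := le_mul_of_one_le_left hξ0.le hq1
        have h7 := mul_lt_mul_of_pos_right h5 (show 0 < q * ξ by positivity)
        linarith
      linarith

/-- Strength of the covering piece passes to the covered element. -/
theorem qn_lt_of_decay {J : Submodule ℂ C} (hJ : IsStarIdeal J) {u s t z r : C} {ξ δ R : ℝ}
    (K : ℕ) (hu1 : ‖u‖ ≤ 1) (hs : star s = s)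
    (hsle : s * s ≤ (2 : ℝ) • (s * (t * star t) * s)) (hsn : ‖s‖ ≤ 4) (htn : ‖t‖ ≤ 4)
    (hus' : star u = u) (hut : qn J (u * t) ≤ 1 / 3) (hus : ‖u * s - s * u‖ ≤ ξ)
    (huz : ‖u * z - z‖ ≤ ξ) (hur : ‖u * star r - star r * u‖ ≤ ξ)
    (hz : ‖star r * (s * s) * r - z‖ ≤ δ / 4) (hR : 1 ≤ R) (hr : ‖r‖ ≤ R) (hδ : 0 < δ)
    (hK : (1 / 2 : ℝ) ^ K * (16 * R ^ 2) ≤ δ / 4)
    (hξ : (17 * R * K + 48 * R ^ 2) * ξ ≤ δ / 8) : qn J z < δ := by
  have hξ0 : 0 ≤ ξ := (norm_nonneg _).trans hus
  have key : ∀ k : ℕ, ∃ w : C, ‖w‖ ≤ 4 ∧ qn J w ≤ 4 * (1 / 2) ^ k + 12 * ξ ∧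
      ‖u * w - w * u‖ ≤ ξ ∧ w * star w ≤ (2 : ℝ) • ((w * t) * star (w * t)) ∧
      ‖z - star r * w * s * r‖ ≤ δ / 4 + k * (17 * R * ξ) := by
    intro k
    induction k with
    | zero =>
      refine ⟨s, hsn, ?_, hus, ?_, ?_⟩
      · have := qn_le_norm (J := J) s
        simp only [pow_zero, mul_one]
        linarith
      · rw [star_mul, hs]
        simpa only [mul_assoc] using hsle
      · rw [norm_sub_rev]
        simpa [mul_assoc] using hz
    | succ k ih =>
      obtain ⟨w, hwn, hwq, hwc, hwle, hwz⟩ := ih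
      refine ⟨u * w, ?_, ?_, ?_, ?_, ?_⟩
      · exact (norm_mul_le _ _).trans ((mul_le_of_le_one_left (norm_nonneg _) hu1).trans hwn)
      · have h1 : u * w * star (u * w) ≤ (2 : ℝ) • ((u * w * t) * star (u * w * t)) := by
          have := star_right_conjugate_le_conjugate hwle u
          rw [mul_smul_comm, smul_mul_assoc] at this
          simpa only [star_mul, mul_assoc] using this
        have h2 := (qn_le_of_le hJ (mul_star_self_nonneg _) h1).trans (qn_smul_le _)
        rw [qn_mul_star_self hJ, qn_mul_star_self hJ, abs_two] at h2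
        have h3 : qn J (u * w * t) ≤ qn J w * (1 / 3) + 4 * ξ := by
          have e := qn_le_add_norm (J := J) (u * w * t) (w * (u * t))
          have e' : u * w * t - w * (u * t) = (u * w - w * u) * t := by
            simp only [sub_mul, mul_assoc]
          rw [e'] at e
          have h4 := (norm_mul_le (u * w - w * u) t).trans (mul_le_mul hwc htn (norm_nonneg _) hξ0)
          have h5 := (qn_mul_le hJ w (u * t)).trans
            (mul_le_mul_of_nonneg_left hut (qn_nonneg _))
          linarith
        set x := qn J (u * w * t) with hx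
        have hx0 : 0 ≤ x := qn_nonneg _
        have h6 : qn J (u * w) ≤ 3 / 2 * x := by
          refine le_of_sq_le_sq ?_ (by linarith)
          nlinarith
        rw [pow_succ]
        linarith
      · have e : u * (u * w) - u * w * u = u * (u * w - w * u) := by
          simp only [mul_sub, mul_assoc]
        rw [e]
        exact (norm_mul_le _ _).trans ((mul_le_of_le_one_left (norm_nonneg _) hu1).trans hwc)
      · have := star_right_conjugate_le_conjugate hwle u
        rw [mul_smul_comm, smul_mul_assoc] at this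
        simpa only [star_mul, mul_assoc] using this
      · have e : z - star r * (u * w) * s * r = (z - u * z) + u * (z - star r * w * s * r) +
            (u * star r - star r * u) * (w * (s * r)) := by
          simp only [mul_sub, sub_mul, mul_assoc]; abel
        rw [e]
        have h1 : ‖z - u * z‖ ≤ ξ := by rw [norm_sub_rev]; exact huz
        have h2 := (norm_mul_le u (z - star r * w * s * r)).trans
          ((mul_le_of_le_one_left (norm_nonneg _) hu1).trans hwz)
        have h3 : ‖(u * star r - star r * u) * (w * (s * r))‖ ≤ ξ * (4 * (4 * R)) := by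
          refine (norm_mul_le _ _).trans (mul_le_mul hur ?_ (norm_nonneg _) hξ0)
          refine (norm_mul_le _ _).trans (mul_le_mul hwn ?_ (norm_nonneg _) (by norm_num))
          exact (norm_mul_le _ _).trans (mul_le_mul hsn hr (norm_nonneg _) (by norm_num))
        have h4 : ξ ≤ R * ξ := le_mul_of_one_le_left hξ0 hR
        push_cast
        linarith [norm_add₃_le (a := z - u * z) (b := u * (z - star r * w * s * r))
          (c := (u * star r - star r * u) * (w * (s * r)))]
  obtain ⟨w, -, hwq, -, -, hwz⟩ := key K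
  have h1 := qn_le_add_norm (J := J) z (star r * w * s * r)
  have h2 : qn J (star r * w * s * r) ≤ qn J w * (4 * R ^ 2) := by
    refine (qn_mul_le hJ _ _).trans ?_
    refine (mul_le_mul ((qn_mul_le hJ _ _).trans (mul_le_mul ((qn_mul_le hJ _ _).trans
      (mul_le_mul_of_nonneg_right ((qn_le_norm _).trans ((norm_star _).le.trans hr))
        (qn_nonneg _))) ((qn_le_norm _).trans hsn) (qn_nonneg _)
      (mul_nonneg (by linarith) (qn_nonneg _)))) ((qn_le_norm _).trans hr) (qn_nonneg _)
      (mul_nonneg (mul_nonneg (by linarith) (qn_nonneg _)) (by norm_num))).trans (le_of_eq ?_)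
    ring
  have h3 := mul_le_mul_of_nonneg_right hwq (show 0 ≤ 4 * R ^ 2 by positivity)
  linarith

end Vale.Agent.P133
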