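import Vale.Agent.P133.Dim.Defs
import Vale.Agent.P133.Quasicentral

/-!
P133: quasi-central units in a closed ideal.
-/

namespace Vale.Agent.P133

open scoped ComplexOrder

variable {C : Type*} [NonUnitalCStarAlgebra C] [PartialOrder C] [StarOrderedRing C]

/-- A closed ideal has units which almost commute with finitely many given elements. -/
theorem exists_quasiCentral {J : Submodule ℂ C} (hJ : IsStarIdeal J) (Z : Finset C)
    (hZ : ∀ z ∈ Z, z ∈ J) (S : Finset C) {ξ : ℝ} (hξ : 0 < ξ) :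
    ∃ u : C, u ∈ J ∧ 0 ≤ u ∧ ‖u‖ ≤ 1 ∧
      (∀ z ∈ Z, ‖u * z - z‖ < ξ ∧ ‖z * u - z‖ < ξ) ∧ ∀ s ∈ S, ‖u * s - s * u‖ < ξ := by
  obtain ⟨u, hu, h0, h1, hz, hs⟩ :=
    exists_quasicentral J hJ.mul_left hJ.mul_right hJ.star_mem Z hZ S hξ
  exact ⟨u, hu, h0, h1, fun z hzZ => ⟨norm_sub_rev z (u * z) ▸ (hz z hzZ).1,
    norm_sub_rev z (z * u) ▸ (hz z hzZ).2⟩, hs⟩

end Vale.Agent.P133
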