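import Vale.Agent.P133.Dim.Local

/-!
P133: bookkeeping for products with quasi-central units, and spans of ideals.
-/

namespace Vale.Agent.P133

open scoped ComplexOrder

set_option linter.unusedSectionVars false

variable {C : Type*} [NonUnitalCStarAlgebra C] [PartialOrder C] [StarOrderedRing C]

theorem norm_sub_pos_mul_le {u : C} (hu : 0 ≤ u) (hu1 : ‖u‖ ≤ 1) (w : C) :
    ‖w - u * w‖ ≤ ‖w‖ := by
  have hus : star u = u := (IsSelfAdjoint.of_nonneg hu).star_eq
  have huu : u * u ≤ u :=
    (mul_self_le_norm_smul hu).trans (smul_le_of_le_one_left hu hu1)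
  have h : star (w - u * w) * (w - u * w) ≤ star w * w := by
    rw [← sub_nonneg]
    have e : star w * w - star (w - u * w) * (w - u * w) = star w * (u + (u - u * u)) * w := by
      simp only [star_sub, star_mul, hus, sub_mul, mul_sub, mul_add, add_mul, mul_assoc]; abel
    rw [e]
    exact star_left_conjugate_nonneg (add_nonneg hu (sub_nonneg.2 huu)) w
  have h2 := CStarAlgebra.norm_le_norm_of_nonneg_of_le (star_mul_self_nonneg _) h
  rw [CStarRing.norm_star_mul_self, CStarRing.norm_star_mul_self] at h2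
  nlinarith [norm_nonneg (w - u * w), norm_nonneg w]

theorem norm_comm_star {x u : C} (hu : star u = u) :
    ‖star x * u - u * star x‖ = ‖x * u - u * x‖ := by
  rw [← norm_star (star x * u - u * star x), star_sub, star_mul, star_mul, star_star, hu,
    norm_sub_rev]

theorem norm_comm_mul (x a b : C) :
    ‖x * (a * b) - a * b * x‖ ≤ ‖x * a - a * x‖ * ‖b‖ + ‖a‖ * ‖x * b - b * x‖ := by
  have e : x * (a * b) - a * b * x = (x * a - a * x) * b + a * (x * b - b * x) := by
    simp only [sub_mul, mul_sub, mul_assoc]; abel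
  rw [e]
  exact (norm_add_le _ _).trans (add_le_add (norm_mul_le _ _) (norm_mul_le _ _))

theorem norm_mul_star_sub_le (X X' : C) :
    ‖X * star X - X' * star X'‖ ≤ (‖X‖ + ‖X'‖) * ‖X - X'‖ := by
  have e : X * star X - X' * star X' = (X - X') * star X + X' * star (X - X') := by
    simp only [star_sub, sub_mul, mul_sub]; abel
  rw [e]
  have h1 := norm_mul_le (X - X') (star X)
  have h2 := norm_mul_le X' (star (X - X'))
  rw [norm_star] at h1 h2
  linarith [norm_add_le ((X - X') * star X) (X' * star (X - X'))]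

/-- `(1 - U (j-1)) ... (1 - U 0) w`. -/
def gw (U : ℕ → C) (w : C) : ℕ → C
  | 0 => w
  | i + 1 => gw U w i - U i * gw U w i

theorem gw_mul (U : ℕ → C) (w h : C) : ∀ j, gw U (w * h) j = gw U w j * h
  | 0 => rfl
  | i + 1 => by rw [gw, gw, gw_mul U w h i, sub_mul, mul_assoc]

theorem norm_gw_le {U : ℕ → C} (hU : ∀ i, 0 ≤ U i ∧ ‖U i‖ ≤ 1) (w : C) :
    ∀ j, ‖gw U w j‖ ≤ ‖w‖
  | 0 => le_rfl
  | i + 1 => (norm_sub_pos_mul_le (hU i).1 (hU i).2 _).trans (norm_gw_le hU w i)

theorem gw_mem {J : Submodule ℂ C} (hJ : IsStarIdeal J) (U : ℕ → C) {w : C} (hw : w ∈ J) :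
    ∀ j, gw U w j ∈ J
  | 0 => hw
  | i + 1 => sub_mem (gw_mem hJ U hw i) (hJ.mul_left _ _ (gw_mem hJ U hw i))

theorem gw_sub_mem {J : Submodule ℂ C} (hJ : IsStarIdeal J) {U : ℕ → C} (w : C) :
    ∀ j, (∀ i < j, U i ∈ J) → gw U w j - w ∈ J
  | 0, _ => by simp [gw]
  | i + 1, h => by
      rw [gw, sub_right_comm]
      exact sub_mem (gw_sub_mem hJ w i fun k hk => h k (by omega))
        (hJ.mul_right _ _ (h i (by omega)))

theorem norm_comm_gw_le {U : ℕ → C} (hU : ∀ i, 0 ≤ U i ∧ ‖U i‖ ≤ 1) {x w : C} {ξ : ℝ}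
    (hw1 : ‖w‖ ≤ 1) (hw : ‖x * w - w * x‖ ≤ ξ) :
    ∀ j, (∀ i < j, ‖x * U i - U i * x‖ ≤ ξ) →
      ‖x * gw U w j - gw U w j * x‖ ≤ (j + 1) * ξ
  | 0, _ => by simpa [gw] using hw
  | i + 1, h => by
      have ih := norm_comm_gw_le hU hw1 hw i fun k hk => h k (by omega)
      have hi := h i (by omega)
      set G := gw U w i with hG
      set D := x * G - G * x with hD
      have e : x * gw U w (i + 1) - gw U w (i + 1) * x =
          (D - U i * D) - (x * U i - U i * x) * G := by
        simp only [gw, hD, ← hG, sub_mul, mul_sub, mul_assoc]; abel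
      rw [e]
      have h1 := (norm_mul_le (x * U i - U i * x) G).trans
        (mul_le_of_le_one_right (norm_nonneg _) ((norm_gw_le hU w i).trans hw1))
      have h2 := norm_sub_pos_mul_le (hU i).1 (hU i).2 D
      push_cast
      linarith [norm_sub_le (D - U i * D) ((x * U i - U i * x) * G)]

/-- `y` annihilates `gw U w j` approximately once some earlier `U i` is a unit for `y`. -/
theorem norm_mul_gw_le {U : ℕ → C} (hU : ∀ i, 0 ≤ U i ∧ ‖U i‖ ≤ 1) {y w : C} {ξ : ℝ}
    (hw : ‖w‖ ≤ 1) {i : ℕ} (hy : ‖y * U i - y‖ ≤ ξ) :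
    ∀ j, i < j → (∀ k < j, ‖U i * U k - U k * U i‖ ≤ ξ) →
      ∃ w', ‖w'‖ ≤ 1 ∧ ‖gw U w j - (w' - U i * w')‖ ≤ j * ξ ∧
        ‖y * gw U w j‖ ≤ (‖y‖ * j + 1) * ξ
  | 0, h, _ => by omega
  | j + 1, hij, hc => by
      have hξ : 0 ≤ ξ := (norm_nonneg _).trans hy
      have key : ∀ {G w' : C} {E : ℝ}, ‖w'‖ ≤ 1 → ‖G - (w' - U i * w')‖ ≤ E →
          ‖y * G‖ ≤ ‖y‖ * E + ξ := fun {G w' E} h1 h2 => by
        have e : y * G = y * (G - (w' - U i * w')) - (y * U i - y) * w' := by
          simp only [sub_mul, mul_sub, mul_assoc]; abel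
        rw [e]
        have h3 := (norm_mul_le y (G - (w' - U i * w'))).trans
          (mul_le_mul_of_nonneg_left h2 (norm_nonneg _))
        have h4 := (norm_mul_le (y * U i - y) w').trans
          (mul_le_mul hy h1 (norm_nonneg _) hξ)
        linarith [norm_sub_le (y * (G - (w' - U i * w'))) ((y * U i - y) * w')]
      rcases Nat.lt_or_ge i j with h | h
      · obtain ⟨w', h1, h2, -⟩ := norm_mul_gw_le hU hw hy j h fun k hk => hc k (by omega)
        set w'' := w' - U j * w' with hw''
        have h1' : ‖w''‖ ≤ 1 := (norm_sub_pos_mul_le (hU j).1 (hU j).2 w').trans h1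
        have h2' : ‖gw U w (j + 1) - (w'' - U i * w'')‖ ≤ (j + 1) * ξ := by
          set D := gw U w j - (w' - U i * w') with hD
          have e : gw U w (j + 1) - (w'' - U i * w'') =
              (D - U j * D) - (U i * U j - U j * U i) * w' := by
            simp only [gw, hD, hw'', sub_mul, mul_sub, mul_assoc]; abel
          rw [e]
          have h3 := norm_sub_pos_mul_le (hU j).1 (hU j).2 D
          have h4 := (norm_mul_le (U i * U j - U j * U i) w').trans
            (mul_le_mul (hc j (by omega)) h1 (norm_nonneg _) hξ)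
          linarith [norm_sub_le (D - U j * D) ((U i * U j - U j * U i) * w')]
        refine ⟨w'', h1', by push_cast; exact h2', (key h1' h2').trans (le_of_eq ?_)⟩
        push_cast; ring
      · have hij' : i = j := by omega
        subst hij'
        have h1' : ‖gw U w i‖ ≤ 1 := (norm_gw_le hU w i).trans hw
        have h2' : ‖gw U w (i + 1) - (gw U w i - U i * gw U w i)‖ ≤ 0 := by simp [gw]
        refine ⟨gw U w i, h1', h2'.trans (by positivity), (key h1' h2').trans ?_⟩
        push_cast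
        nlinarith [norm_nonneg y, mul_nonneg (norm_nonneg y) hξ]

/-- Quasi-central units in several ideals which also almost commute with each other. -/
theorem exists_family : ∀ (n : ℕ) (J : Fin n → Submodule ℂ C), (∀ i, IsStarIdeal (J i)) →
    ∀ Z : Fin n → Finset C, (∀ i, ∀ z ∈ Z i, z ∈ J i) → ∀ (S : Finset C) (ξ : ℝ), 0 < ξ →
      ∃ u : Fin n → C, ∀ i, u i ∈ J i ∧ 0 ≤ u i ∧ ‖u i‖ ≤ 1 ∧
        (∀ z ∈ Z i, ‖u i * z - z‖ < ξ ∧ ‖z * u i - z‖ < ξ) ∧
        (∀ s ∈ S, ‖u i * s - s * u i‖ ≤ ξ) ∧ ∀ j, ‖u i * u j - u j * u i‖ ≤ ξ := by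
  intro n
  induction n with
  | zero => exact fun _ _ _ _ _ _ _ => ⟨Fin.elim0, fun i => i.elim0⟩
  | succ n ih =>
    classical
    intro J hJ Z hZ S ξ hξ
    obtain ⟨u, hu⟩ := ih (fun i => J i.castSucc) (fun i => hJ _) (fun i => Z i.castSucc)
      (fun i => hZ _) S ξ hξ
    obtain ⟨w, hwJ, hw0, hw1, hwZ, hwS⟩ := exists_quasiCentral (hJ (Fin.last n)) (Z (Fin.last n))
      (hZ _) (S ∪ Finset.univ.image u) hξ
    refine ⟨Fin.snoc u w, Fin.lastCases ?_ fun i => ?_⟩
    · simp only [Fin.snoc_last]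
      refine ⟨hwJ, hw0, hw1, hwZ, fun s hs => (hwS s (by simp [hs])).le,
        Fin.lastCases ?_ fun j => ?_⟩
      · simpa using hξ.le
      · rw [Fin.snoc_castSucc]; exact (hwS (u j) (by simp)).le
    · simp only [Fin.snoc_castSucc]
      obtain ⟨h1, h2, h3, h4, h5, h6⟩ := hu i
      refine ⟨h1, h2, h3, h4, h5, Fin.lastCases ?_ fun j => ?_⟩
      · rw [Fin.snoc_last, norm_sub_rev]; exact (hwS (u i) (by simp)).le
      · rw [Fin.snoc_castSucc]; exact h6 j

theorem isStarIdeal_idealSpan {O : Set C} (hO : ∀ o ∈ O, star o = o) :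
    IsStarIdeal (idealSpan O) where
  closed := Submodule.isClosed_topologicalClosure _
  mul_left u x hx := by
    refine map_mem_closure (f := fun y => u * y) (continuous_const_mul u) hx fun y hy => ?_
    induction hy using Submodule.span_induction with
    | mem y hy =>
      obtain ⟨o, ho, p, q, rfl⟩ := hy
      exact Submodule.subset_span ⟨o, ho, u * p, q, by simp only [mul_assoc]⟩
    | zero => simp
    | add y₁ y₂ _ _ h₁ h₂ => simpa [mul_add] using add_mem h₁ h₂
    | smul r y _ hy => simpa [mul_smul_comm] using Submodule.smul_mem _ r hy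
  mul_right u x hx := by
    refine map_mem_closure (f := fun y => y * u) (continuous_mul_const u) hx fun y hy => ?_
    induction hy using Submodule.span_induction with
    | mem y hy =>
      obtain ⟨o, ho, p, q, rfl⟩ := hy
      exact Submodule.subset_span ⟨o, ho, p, q * u, by simp only [mul_assoc]⟩
    | zero => simp
    | add y₁ y₂ _ _ h₁ h₂ => simpa [add_mul] using add_mem h₁ h₂
    | smul r y _ hy => simpa [smul_mul_assoc] using Submodule.smul_mem _ r hy
  star_mem x hx := by
    refine map_mem_closure (f := fun y => star y) continuous_star hx fun y hy => ?_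
    induction hy using Submodule.span_induction with
    | mem y hy =>
      obtain ⟨o, ho, p, q, rfl⟩ := hy
      exact Submodule.subset_span ⟨o, ho, star q, star p, by
        simp only [star_mul, hO o ho, mul_assoc]⟩
    | zero => simp
    | add y₁ y₂ _ _ h₁ h₂ => simpa using add_mem h₁ h₂
    | smul r y _ hy => simpa using Submodule.smul_mem _ (star r) hy

theorem idealGen_le_idealSpan {O : Set C} {o : C} (ho : o ∈ O) : idealGen o ≤ idealSpan O := by
  refine Submodule.topologicalClosure_mono (Submodule.span_mono ?_)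
  rintro e ⟨p, q, rfl⟩
  exact ⟨o, ho, p, q, rfl⟩

theorem idealSpan_le {O : Set C} {J : Submodule ℂ C} (hJ : IsStarIdeal J) (h : ∀ o ∈ O, o ∈ J) :
    idealSpan O ≤ J := by
  refine Submodule.topologicalClosure_minimal _ (Submodule.span_le.2 ?_) hJ.closed
  rintro e ⟨o, ho, p, q, rfl⟩
  exact hJ.mul_right q _ (hJ.mul_left p o (h o ho))

/-- An element in the sum of finitely many ideals splits along them, up to a small error. -/
theorem exists_split {n : ℕ} {c : Fin n → C} {S : Finset (Fin n)}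
    {a : C} (ha : a ∈ idealSpan (c '' (S : Set (Fin n)))) {η : ℝ} (hη : 0 < η) :
    ∃ w : Fin n → C, (∀ i, w i ∈ idealGen (c i)) ∧ ‖a - ∑ i ∈ S, w i‖ < η := by
  obtain ⟨e, he, hae⟩ := Metric.mem_closure_iff.1 ha η hη
  rw [dist_eq_norm] at hae
  suffices ∃ w : Fin n → C, (∀ i, w i ∈ idealGen (c i)) ∧ e = ∑ i ∈ S, w i by
    obtain ⟨w, hw, rfl⟩ := this
    exact ⟨w, hw, hae⟩
  clear hae
  induction he using Submodule.span_induction with
  | mem e he =>
    obtain ⟨_, ⟨i, hi, rfl⟩, p, q, rfl⟩ := he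
    classical
    refine ⟨fun j => if j = i then p * c i * q else 0, fun j => ?_, ?_⟩
    · dsimp only
      split_ifs with h
      · subst h
        exact Submodule.le_topologicalClosure _ (Submodule.subset_span ⟨p, q, rfl⟩)
      · exact zero_mem _
    · rw [Finset.sum_ite_eq' S i (fun _ => p * c i * q), if_pos (Finset.mem_coe.1 hi)]
  | zero => exact ⟨0, fun _ => zero_mem _, by simp⟩
  | add u v _ _ hu hv =>
    obtain ⟨wu, hu1, hu2⟩ := hu
    obtain ⟨wv, hv1, hv2⟩ := hv
    exact ⟨fun i => wu i + wv i, fun i => add_mem (hu1 i) (hv1 i), by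
      rw [hu2, hv2, Finset.sum_add_distrib]⟩
  | smul r u _ hu =>
    obtain ⟨w, h1, h2⟩ := hu
    exact ⟨fun i => r • w i, fun i => Submodule.smul_mem _ r (h1 i), by
      rw [h2, Finset.smul_sum]⟩

end Vale.Agent.P133
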